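import Vale.Agent.P205.Wave.Correct

/-!
The wave itself: its induced metric is the finite expansion; it is the old map where the
amplitude and the prescribed terms vanish.
-/

noncomputable section

open Set Finset Real
open scoped ContDiff

namespace Vale.Agent.P205.Wave

variable {E : Type} [NormedAddCommGroup E] [NormedSpace ℝ E] [FiniteDimensional ℝ E]

theorem hasFDerivAt_fast {G : Type} [NormedAddCommGroup G] [NormedSpace ℝ G] {Ω : Set E}
    (hΩ : IsOpen Ω) {f : E → ℝ → G} (hf : Smooth2 Ω f) (φ : E →L[ℝ] ℝ) (k : ℝ) {x : E}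
    (hx : x ∈ Ω) (a : E) :
    DifferentiableAt ℝ (fun y => f y (k * φ y)) x ∧
      D a (fun y => f y (k * φ y)) x =
        D a (fun y => f y (k * φ x)) x + (k * φ a) • deriv (f x) (k * φ x) := by
  have ho : IsOpen (Ω ×ˢ (univ : Set ℝ)) := hΩ.prod isOpen_univ
  have hd : HasFDerivAt (fun q : E × ℝ => f q.1 q.2) _ (x, k * φ x) :=
    ((hf.differentiableOn (by simp)).differentiableAt (ho.mem_nhds ⟨hx, trivial⟩)).hasFDerivAt
  have h1 := hd.comp (f := fun y => (y, k * φ y)) x
    ((hasFDerivAt_id x).prodMk (φ.hasFDerivAt.const_mul k))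
  have h2 := hd.comp (f := fun y => (y, k * φ x)) x (hasFDerivAt_prodMk_left x (k * φ x))
  have h3 := hd.comp_hasDerivAt (f := fun u : ℝ => (x, u)) (k * φ x)
    ((hasDerivAt_const (k * φ x) x).prodMk (hasDerivAt_id _))
  have h4 : HasFDerivAt (fun y => f y (k * φ y)) _ x := h1
  have h5 : HasFDerivAt (fun y => f y (k * φ x)) _ x := h2
  have h6 : HasDerivAt (f x) _ (k * φ x) := h3
  refine ⟨h4.differentiableAt, ?_⟩
  simp only [D]
  rw [h4.fderiv, h5.fderiv, h6.deriv]
  simp only [ContinuousLinearMap.comp_apply, ContinuousLinearMap.prod_apply,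
    ContinuousLinearMap.id_apply, ContinuousLinearMap.smul_apply, ContinuousLinearMap.inl_apply,
    smul_eq_mul]
  rw [← map_smul, ← map_add]
  simp

theorem ip_sum_pow (c : ℝ) (a b : ℕ → V4) (M : ℕ) (ha : ∀ i, M ≤ i → a i = 0)
    (hb : ∀ i, M ≤ i → b i = 0) :
    ip (∑ i ∈ range M, c ^ i • a i) (∑ i ∈ range M, c ^ i • b i) =
      ∑ n ∈ range (2 * M), c ^ n * ∑ i ∈ range (n + 1), ip (a i) (b (n - i)) := by
  have e1 : ∀ n, c ^ n * ∑ i ∈ range (n + 1), ip (a i) (b (n - i)) =
      ∑ i ∈ range (n + 1), ip (c ^ i • a i) (c ^ (n - i) • b (n - i)) := fun n => by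
    rw [mul_sum]
    refine sum_congr rfl fun i hi => ?_
    have : c ^ i * c ^ (n - i) = c ^ n := by
      rw [← pow_add, Nat.add_sub_cancel' (Nat.lt_succ_iff.1 (mem_range.1 hi))]
    rw [ip_smul_left, ip_smul_right, ← mul_assoc, this]
  rw [sum_congr rfl fun n _ => e1 n,
    sum_range_diag_flip (2 * M) (fun i j => ip (c ^ i • a i) (c ^ j • b j))]
  have el : ∀ (s : Finset ℕ) (g : ℕ → V4) (w : V4),
      ip (∑ i ∈ s, g i) w = ∑ i ∈ s, ip (g i) w := fun s g w => by
    simp only [ip, Finset.sum_apply, sum_mul]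
    exact sum_comm
  have er : ∀ (s : Finset ℕ) (g : ℕ → V4) (w : V4),
      ip w (∑ i ∈ s, g i) = ∑ i ∈ s, ip w (g i) := fun s g w => by
    rw [ip_comm, el]; exact sum_congr rfl fun i _ => ip_comm _ _
  rw [el, ← sum_subset (s₁ := range M) (s₂ := range (2 * M)) (range_mono (by omega))
    (fun i _ hi => sum_eq_zero fun j _ => by
      rw [ha i (by simpa using hi), smul_zero, ip_zero_left])]
  refine sum_congr rfl fun i hi => ?_
  have := mem_range.1 hi
  rw [er, ← sum_subset (s₁ := range M) (s₂ := range (2 * M - i)) (range_mono (by omega))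
    (fun j _ hj => by rw [hb j (by simpa using hj), smul_zero, ip_zero_right])]

namespace Data

variable (W : Data E)

/-- The wave of order `N` with phase `φ` at frequency `k`. -/
def out (N : ℕ) (φ : E →L[ℝ] ℝ) (k : ℝ) (x : E) : V4 :=
  W.Z x + ∑ j ∈ range (N + 1), k⁻¹ ^ (j + 1) • W.upTo (N + 1) (j + 1) x (k * φ x)

variable {W}

theorem D_out (h : W.Good) (N : ℕ) (φ : E →L[ℝ] ℝ) (hv : φ W.v = 1) (he : φ W.e = 0) {k : ℝ}
    (hk : k ≠ 0) {x : E} (hx : x ∈ W.Ω) :
    D W.e (W.out N φ k) x =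
        ∑ i ∈ range (N + 2), k⁻¹ ^ i • W.de (W.upTo (N + 1)) i x (k * φ x) ∧
      D W.v (W.out N φ k) x =
        ∑ i ∈ range (N + 2), k⁻¹ ^ i • W.dv (W.upTo (N + 1)) i x (k * φ x) := by
  have hI := inv_upTo h N
  have hZ : DifferentiableAt ℝ W.Z x :=
    (h.smoothZ.differentiableOn (by simp)).differentiableAt (h.open_.mem_nhds hx)
  have hd := fun a j => hasFDerivAt_fast h.open_ (hI.sp j).smooth φ k hx a
  have hsum : ∀ a, D a (W.out N φ k) x = D a W.Z x + ∑ j ∈ range (N + 1), k⁻¹ ^ (j + 1) •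
      (D a (fun y => W.upTo (N + 1) (j + 1) y (k * φ x)) x +
        (k * φ a) • deriv (W.upTo (N + 1) (j + 1) x) (k * φ x)) := fun a => by
    have h1 : HasFDerivAt (W.out N φ k) _ x := hZ.hasFDerivAt.add (HasFDerivAt.fun_sum
      (u := range (N + 1)) fun j _ => ((hd a (j + 1)).1.hasFDerivAt.const_smul (k⁻¹ ^ (j + 1))))
    simp only [D]
    rw [h1.fderiv]
    simp only [ContinuousLinearMap.add_apply, ContinuousLinearMap.coe_sum', Finset.sum_apply,
      ContinuousLinearMap.smul_apply]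
    exact congrArg _ (sum_congr rfl fun j _ => congrArg _ (hd a (j + 1)).2)
  constructor
  · rw [hsum, he, sum_range_succ' _ (N + 1)]
    simp only [mul_zero, zero_smul, add_zero, de, Nat.add_one_ne_zero, if_false, if_true, pow_zero,
      one_smul, Ze]
    exact add_comm _ _
  · rw [hsum, hv, mul_one]
    simp only [smul_add, sum_add_distrib, smul_smul, dv]
    rw [sum_range_succ' (fun i => k⁻¹ ^ i •
      if i = 0 then W.Zv x else D W.v (fun y => W.upTo (N + 1) i y (k * φ x)) x) (N + 1),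
      sum_range_succ (fun i => k⁻¹ ^ i • deriv (W.upTo (N + 1) (i + 1) x) (k * φ x)) (N + 1)]
    have e0 : deriv (W.upTo (N + 1) (N + 1 + 1) x) (k * φ x) = 0 := by
      have : W.upTo (N + 1) (N + 1 + 1) x = fun _ => 0 :=
        funext fun s => hI.beyond _ (by omega) x s
      simp [this]
    have e1 : ∀ j, k⁻¹ ^ (j + 1) * k = k⁻¹ ^ j := fun j => by
      rw [pow_succ, mul_assoc, inv_mul_cancel₀ hk, mul_one]
    simp only [e0, smul_zero, add_zero, e1, Nat.add_one_ne_zero, if_false, if_true, pow_zero,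
      one_smul, Zv]
    abel

theorem vanish_beyond (h : W.Good) (N i : ℕ) (hi : N + 2 ≤ i) (x : E) (s : ℝ) :
    W.de (W.upTo (N + 1)) i x s = 0 ∧ W.dv (W.upTo (N + 1)) i x s = 0 := by
  have hI := inv_upTo h N
  have e1 : ∀ j, N + 1 < j → W.upTo (N + 1) j = fun _ _ => 0 :=
    fun j hj => funext fun y => funext fun r => hI.beyond j hj y r
  constructor
  · simp [de, show i ≠ 0 by omega, e1 i (by omega), D]
  · simp [dv, show i ≠ 0 by omega, e1 i (by omega), e1 (i + 1) (by omega), D]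

/-- **Lemma A, the expansion.** The induced metric of the wave is the finite sum of the
coefficients. -/
theorem out_metric (h : W.Good) (N : ℕ) (φ : E →L[ℝ] ℝ) (hv : φ W.v = 1) (he : φ W.e = 0) {k : ℝ}
    (hk : k ≠ 0) {x : E} (hx : x ∈ W.Ω) :
    let X := W.out N φ k
    let c := fun (f : (ℕ → E → ℝ → V4) → ℕ → E → ℝ → ℝ) =>
      ∑ n ∈ range (2 * (N + 2)), k⁻¹ ^ n * f (W.upTo (N + 1)) n x (k * φ x)
    ip (D W.e X x) (D W.e X x) = c W.coefEE ∧ ip (D W.v X x) (D W.e X x) = c W.coefVE ∧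
      ip (D W.v X x) (D W.v X x) = c W.coefVV := by
  obtain ⟨h1, h2⟩ := D_out h N φ hv he hk hx
  have hz := fun i hi => vanish_beyond h N i hi x (k * φ x)
  simp only [h1, h2]
  exact ⟨ip_sum_pow _ _ _ _ (fun i hi => (hz i hi).1) fun i hi => (hz i hi).1,
    ip_sum_pow _ _ _ _ (fun i hi => (hz i hi).2) fun i hi => (hz i hi).1,
    ip_sum_pow _ _ _ _ (fun i hi => (hz i hi).2) fun i hi => (hz i hi).2⟩

/-- Order zero: the old metric plus `ρ²` on the phase. -/
theorem coef_zero (h : W.Good) (N : ℕ) {x : E} (hx : x ∈ W.Ω) (s : ℝ) :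
    W.coefEE (W.upTo (N + 1)) 0 x s = ip (W.Ze x) (W.Ze x) ∧
      W.coefVE (W.upTo (N + 1)) 0 x s = ip (W.Zv x) (W.Ze x) ∧
      W.coefVV (W.upTo (N + 1)) 0 x s = ip (W.Zv x) (W.Zv x) + W.rho x ^ 2 := by
  have hd := (inv_upTo h N).dv0 x hx s
  obtain ⟨f1, f2, f3, f4, f5, f6, f7, f8⟩ := frame h hx
  have bt : ip (W.tau x) (W.bb x) = 0 :=
    ip_lift2_perp (by rw [ip_comm, f1]) (by rw [ip_comm, f2]) _ _
  have bn : ip (W.nu x) (W.bb x) = 0 :=
    ip_lift2_perp (by rw [ip_comm, f3]) (by rw [ip_comm, f4]) _ _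
  have circ : W.cs x s ^ 2 + W.sn x s ^ 2 = 1 := by
    simp only [cs, sn]; field_simp; ring
  have hl : W.ell x ^ 2 = W.aa x ^ 2 + W.rho x ^ 2 := Real.sq_sqrt (by positivity)
  refine ⟨by simp [coefEE, de], ?_, ?_⟩
  · simp only [coefVE, zero_add, sum_range_one, Nat.sub_zero, Nat.sub_self, de, if_true]
    rw [hd, vel_eq h hx]
    rw [f8]
    simp [ip_comm _ (W.Ze x), f1, f3]
  · simp only [coefVV, zero_add, sum_range_one, Nat.sub_zero, Nat.sub_self]
    rw [hd, vel_eq h hx]
    rw [f8]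
    simp [bt, bn, ip_comm (W.bb x) (W.tau x), ip_comm (W.bb x) (W.nu x), f5, f6, f7,
      ip_comm (W.nu x) (W.tau x)]
    linear_combination W.ell x ^ 2 * circ + hl

/-- Locality: on an open set free of amplitude and of prescribed terms every corrector is zero. -/
theorem upTo_eq_zero (h : W.Good) {U : Set E} (hU : IsOpen U) (hUΩ : U ⊆ W.Ω)
    (hr : ∀ x ∈ U, W.rho x = 0) (hE : ∀ n, ∀ x ∈ U, W.Err n x = 0) :
    ∀ (m j : ℕ), ∀ x ∈ U, ∀ s, W.upTo (m + 1) j x s = 0 := by
  have hcs : ∀ x ∈ U, W.ell x = W.aa x ∧ W.cs x = 1 ∧ W.sn x = 0 := fun x hx => by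
    have := aa_pos' h (hUΩ hx)
    refine ⟨by simp [ell, hr x hx, Real.sqrt_sq this.le], ?_, ?_⟩ <;> funext r <;>
      simp [cs, sn, amp, hr x hx]
  have hY1 : ∀ x ∈ U, ∀ s, W.Y1 x s = 0 := fun x hx s => by
    obtain ⟨e1, e2, e3⟩ := hcs x hx
    have : W.dY1 x = fun _ => 0 := funext fun r => by simp [dY1, e1, e2, e3]
    simp [Y1, this, prim, mean]
  intro m
  induction m with
  | zero =>
    intro j x hx s
    rcases eq_or_ne j 1 with rfl | hj
    · rw [show W.upTo 1 1 = W.Y1 from Function.update_self _ _ _]; exact hY1 x hx s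
    · rw [show W.upTo 1 j = fun _ _ => 0 from Function.update_of_ne hj _ _]
  | succ m ih =>
    intro j x hx s
    rw [show W.upTo (m + 1 + 1) = Function.update (W.upTo (m + 1)) (m + 2)
      (W.step (W.upTo (m + 1)) (m + 1)) from rfl]
    rcases eq_or_ne j (m + 2) with rfl | hj
    swap
    · rw [Function.update_of_ne hj]; exact ih j x hx s
    rw [Function.update_self]
    obtain ⟨e1, e2, e3⟩ := hcs x hx
    have hY : ∀ i, ∀ y ∈ U, W.upTo (m + 1) i y = fun _ => 0 := fun i y hy => funext (ih i y hy)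
    have hDa : ∀ (a : E) i r, D a (fun y => W.upTo (m + 1) i y r) x = 0 := fun a i r => by
      have e : (fun y => W.upTo (m + 1) i y r) =ᶠ[nhds x] fun _ => (0 : V4) := by
        filter_upwards [hU.mem_nhds hx] with y hy using ih i y hy r
      simp [D, e.fderiv_eq]
    have hde : ∀ i, 0 < i → ∀ r, W.de (W.upTo (m + 1)) i x r = 0 :=
      fun i hi r => by simp [de, hi.ne', hDa]
    have hdv : ∀ i, 0 < i → ∀ r, W.dv (W.upTo (m + 1)) i x r = 0 :=
      fun i hi r => by simp [dv, hi.ne', hDa, hY (i + 1) x hx]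
    have hc : ∀ (A B : ℕ → E → ℝ → V4), (∀ i, 0 < i → ∀ r, A i x r = 0) →
        (∀ i, 0 < i → ∀ r, B i x r = 0) → ∀ n, 0 < n → ∀ r,
          ∑ i ∈ range (n + 1), ip (A i x r) (B (n - i) x r) = 0 :=
      fun A B hA hB n hn r => sum_eq_zero fun i hi => by
        rcases Nat.eq_zero_or_pos i with rfl | h0
        · rw [hB _ (by omega), ip_zero_right]
        · rw [hA i h0, ip_zero_left]
    have r1 : ∀ y ∈ U, W.res1 (W.upTo (m + 1)) (m + 1) y = fun _ => 0 := fun y hy => by
      funext r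
      have hy1 : ∀ i, 0 < i → ∀ t, W.de (W.upTo (m + 1)) i y t = 0 := fun i hi t => by
        have e : (fun z => W.upTo (m + 1) i z t) =ᶠ[nhds y] fun _ => (0 : V4) := by
          filter_upwards [hU.mem_nhds hy] with z hz using ih i z hz t
        simp [de, hi.ne', D, e.fderiv_eq]
      have hy2 : ∀ i, 0 < i → ∀ t, W.dv (W.upTo (m + 1)) i y t = 0 := fun i hi t => by
        have e : (fun z => W.upTo (m + 1) i z t) =ᶠ[nhds y] fun _ => (0 : V4) := by
          filter_upwards [hU.mem_nhds hy] with z hz using ih i z hz t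
        simp [dv, hi.ne', D, e.fderiv_eq, hY (i + 1) y hy]
      have : W.coefVE (W.upTo (m + 1)) (m + 1) y r = 0 := sum_eq_zero fun i hi => by
        rcases Nat.eq_zero_or_pos i with rfl | h0
        · rw [hy1 _ (by omega), ip_zero_right]
        · rw [hy2 i h0, ip_zero_left]
      simp [res1, this, hE _ y hy]
    have u1z : ∀ y ∈ U, W.u1 (W.upTo (m + 1)) (m + 1) y = fun _ => 0 := fun y hy => by
      funext r
      have : W.du1 (W.upTo (m + 1)) (m + 1) y = fun _ => 0 := funext fun t => by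
        simp [du1, r1 y hy, mean]
      simp [u1, this, prim, mean]
    have r0 : W.res0 (W.upTo (m + 1)) (m + 1) x = fun _ => 0 := funext fun r => by
      have e : (fun y => W.u1 (W.upTo (m + 1)) (m + 1) y r) =ᶠ[nhds x] fun _ => (0 : ℝ) := by
        filter_upwards [hU.mem_nhds hx] with y hy using congrFun (u1z y hy) r
      simp [res0, coefEE, hc _ _ hde hde (m + 2) (by omega) r, D, e.fderiv_eq, hE _ x hx]
    have u2z : W.u2 (W.upTo (m + 1)) (m + 1) x = fun _ => 0 := funext fun r => by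
      simp [u2, r0, mean]
    have gz : W.gvv (W.upTo (m + 1)) (m + 1) x = fun _ => 0 := funext fun r => by
      simp [gvv, coefVV, hc _ _ hdv hdv (m + 1) (by omega) r, hE _ x hx, u2z, du1, r1 x hx, mean,
        lift, lift2]
    have qz : W.dq (W.upTo (m + 1)) (m + 1) x = fun _ => 0 := funext fun r => by
      simp [dq, wvv, cvv, mvv, gz, mean]
    simp [step, congrFun (u1z x hx), congrFun u2z, qz, prim, mean, lift, lift2]

end Data

end Vale.Agent.P205.Wave
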