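import Vale.Agent.P205.Wave.Recursion

/-!
The correctors of one wave and the proof that they leave only slow tensors in every order.
-/

noncomputable section

open Set Finset Real
open scoped ContDiff

namespace Vale.Agent.P205.Wave

variable {E : Type} [NormedAddCommGroup E] [NormedSpace ℝ E] [FiniteDimensional ℝ E]

/-- A smooth family of periodic functions. -/
structure SP {G : Type} [NormedAddCommGroup G] [NormedSpace ℝ G] (Ω : Set E)
    (f : E → ℝ → G) : Prop where
  smooth : Smooth2 Ω f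
  per : ∀ x ∈ Ω, Function.Periodic (f x) (2 * π)

variable {Ω : Set E}

omit [FiniteDimensional ℝ E] in
theorem SP.cont {G : Type} [NormedAddCommGroup G] [NormedSpace ℝ G] {f : E → ℝ → G}
    (hf : SP Ω f) {x : E} (hx : x ∈ Ω) : Continuous (f x) :=
  (contDiffOn_univ.1 (hf.smooth.comp (contDiff_prodMk_right x).contDiffOn
    fun _ _ => ⟨hx, trivial⟩) : ContDiff ℝ ∞ (f x)).continuous

theorem SP.prim {G : Type} [NormedAddCommGroup G] [NormedSpace ℝ G] [CompleteSpace G]
    {f : E → ℝ → G} (hΩ : IsOpen Ω) (hf : SP Ω f) (h0 : ∀ x ∈ Ω, mean (f x) = 0) :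
    SP Ω fun x => Wave.prim (f x) :=
  ⟨hf.smooth.prim hΩ, fun x hx => periodic_prim (hf.cont hx) (hf.per x hx) (h0 x hx)⟩

omit [FiniteDimensional ℝ E] in
theorem SP.de {G : Type} [NormedAddCommGroup G] [NormedSpace ℝ G] (hΩ : IsOpen Ω)
    {f : E → ℝ → G} (hf : SP Ω f) (a : E) : SP Ω fun x s => D a (fun y => f y s) x := by
  refine ⟨hf.smooth.de hΩ a, fun x hx s => ?_⟩
  have e : (fun y => f y (s + 2 * π)) =ᶠ[nhds x] fun y => f y s := by
    filter_upwards [hΩ.mem_nhds hx] with y hy using hf.per y hy s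
  simp only [D]
  rw [e.fderiv_eq]

omit [FiniteDimensional ℝ E] in
theorem SP.ds {G : Type} [NormedAddCommGroup G] [NormedSpace ℝ G] (hΩ : IsOpen Ω)
    {f : E → ℝ → G} (hf : SP Ω f) : SP Ω fun x s => deriv (f x) s := by
  refine ⟨hf.smooth.ds hΩ, fun x hx s => ?_⟩
  conv_rhs => rw [← (funext (hf.per x hx) : (fun u => f x (u + 2 * π)) = f x)]
  rw [deriv_comp_add_const]

namespace Data

variable (W : Data E)

/-- The known part of the remainder in order `n`. -/
def res1 (Y : ℕ → E → ℝ → V4) (n : ℕ) (x : E) (s : ℝ) : ℝ := W.Err n x s 1 - W.coefVE Y n x s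
def du1 (Y : ℕ → E → ℝ → V4) (n : ℕ) (x : E) (s : ℝ) : ℝ :=
  W.res1 Y n x s - mean (W.res1 Y n x)
def u1 (Y : ℕ → E → ℝ → V4) (n : ℕ) (x : E) : ℝ → ℝ := prim (W.du1 Y n x)
def res0 (Y : ℕ → E → ℝ → V4) (n : ℕ) (x : E) (s : ℝ) : ℝ :=
  W.coefEE Y (n + 1) x s + 2 * D W.e (fun y => W.u1 Y n y s) x - W.Err (n + 1) x s 0
def u2 (Y : ℕ → E → ℝ → V4) (n : ℕ) (x : E) (s : ℝ) : ℝ :=
  1 / 2 * (W.res0 Y n x s - mean (W.res0 Y n x))
def gvv (Y : ℕ → E → ℝ → V4) (n : ℕ) (x : E) (s : ℝ) : ℝ :=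
  (W.Err n x s 2 - W.coefVV Y n x s) / 2 -
    ip (W.bb x) (W.lift x (W.du1 Y n x s) (deriv (W.u2 Y n x) s))
def mvv (Y : ℕ → E → ℝ → V4) (n : ℕ) (x : E) : ℝ :=
  mean (fun s => W.gvv Y n x s * W.cs x s) / mean (W.cs x)
def wvv (Y : ℕ → E → ℝ → V4) (n : ℕ) (x : E) (s : ℝ) : ℝ :=
  (W.gvv Y n x s - W.mvv Y n x) / W.ell x
def cvv (Y : ℕ → E → ℝ → V4) (n : ℕ) (x : E) : ℝ :=
  -mean (fun s => W.wvv Y n x s * W.sn x s) / mean (W.cs x)
/-- The fast derivative of the part orthogonal to `Z_e, Z_ee`. -/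
def dq (Y : ℕ → E → ℝ → V4) (n : ℕ) (x : E) (s : ℝ) : V4 :=
  (W.wvv Y n x s * W.cs x s - W.cvv Y n x * W.sn x s) • W.tau x +
    (W.wvv Y n x s * W.sn x s + W.cvv Y n x * W.cs x s) • W.nu x
/-- The corrector of order `n + 1`. -/
def step (Y : ℕ → E → ℝ → V4) (n : ℕ) (x : E) (s : ℝ) : V4 :=
  W.lift x (W.u1 Y n x s) (W.u2 Y n x s) + prim (W.dq Y n x) s

/-- The correctors up to order `n`, zero beyond. -/
def upTo : ℕ → ℕ → E → ℝ → V4
  | 0 => fun _ _ _ => 0
  | 1 => Function.update (fun _ _ _ => 0) 1 W.Y1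
  | n + 2 => Function.update (upTo (n + 1)) (n + 2) (W.step (upTo (n + 1)) (n + 1))

variable {W}

/-- What holds for the correctors up to order `n`. -/
structure Inv (W : Data E) (Y : ℕ → E → ℝ → V4) (n : ℕ) : Prop where
  one : 1 ≤ n
  sp : ∀ j, SP W.Ω (Y j)
  beyond : ∀ j, n < j → ∀ x s, Y j x s = 0
  dv0 : ∀ x ∈ W.Ω, ∀ s, W.dv Y 0 x s = W.vel x s
  ee : ∀ x ∈ W.Ω, ∃ S : ℝ, ∀ s, W.coefEE Y n x s = W.Err n x s 0 + S

theorem sp_de (h : W.Good) {Y : ℕ → E → ℝ → V4} (hY : ∀ j, SP W.Ω (Y j)) (j : ℕ) :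
    SP W.Ω (W.de Y j) := by
  by_cases hj : j = 0
  · have e : W.de Y j = fun x _ => W.Ze x := by funext x s; simp [de, hj]
    exact e ▸ ⟨Smooth2.of_fst (smooth_Ze h), fun _ _ _ => rfl⟩
  · have e : W.de Y j = fun x s => D W.e (fun y => Y j y s) x := by funext x s; simp [de, hj]
    exact e ▸ (hY j).de h.open_ _

theorem sp_dv (h : W.Good) {Y : ℕ → E → ℝ → V4} (hY : ∀ j, SP W.Ω (Y j)) (j : ℕ) :
    SP W.Ω (W.dv Y j) := by
  have h1 := (hY (j + 1)).ds h.open_
  by_cases hj : j = 0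
  · refine ⟨((Smooth2.of_fst (smooth_Zv h)).add h1.smooth).congr fun p _ => by simp [dv, hj],
      fun x hx s => ?_⟩
    simp only [dv, hj, if_true] at h1 ⊢
    exact congrArg (W.Zv x + ·) (h1.per x hx s)
  · have h2 := (hY j).de h.open_ W.v
    refine ⟨(h2.smooth.add h1.smooth).congr fun p _ => by simp [dv, hj], fun x hx s => ?_⟩
    simp only [dv, hj, if_false]
    exact congrArg₂ (· + ·) (h2.per x hx s) (h1.per x hx s)

theorem sp_sum_ip {A B : ℕ → E → ℝ → V4} (hA : ∀ j, SP Ω (A j)) (hB : ∀ j, SP Ω (B j)) (n : ℕ) :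
    SP Ω fun x s => ∑ i ∈ Finset.range (n + 1), ip (A i x s) (B (n - i) x s) :=
  ⟨ContDiffOn.sum fun i _ => contDiffOn_ip (hA i).smooth (hB (n - i)).smooth, fun x hx s => by
    simp only [(hA _).per x hx s, (hB _).per x hx s]⟩

theorem sp_res1 (h : W.Good) {Y : ℕ → E → ℝ → V4} (hY : ∀ j, SP W.Ω (Y j)) (n : ℕ) :
    SP W.Ω (W.res1 Y n) := by
  have hc := sp_sum_ip (sp_dv h hY) (sp_de h hY) n
  refine ⟨(h.smoothErr n 1).sub hc.smooth, fun x hx s => ?_⟩
  exact congrArg₂ (· - ·) (h.perErr n x hx 1 s) (hc.per x hx s)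

theorem sp_centre {f : E → ℝ → ℝ} (hΩ : IsOpen Ω) (hf : SP Ω f) :
    SP Ω (fun x s => f x s - mean (f x)) ∧ ∀ x ∈ Ω, mean (fun s => f x s - mean (f x)) = 0 :=
  ⟨⟨hf.smooth.sub (Smooth2.of_fst (hf.smooth.mean hΩ)), fun x hx s => by
    simp only [hf.per x hx s]⟩, fun x hx => by
    rw [mean_sub (hf.cont hx) continuous_const, mean_const, sub_self]⟩

theorem sp_du1 (h : W.Good) {Y : ℕ → E → ℝ → V4} (hY : ∀ j, SP W.Ω (Y j)) (n : ℕ) :
    SP W.Ω (W.du1 Y n) := (sp_centre h.open_ (sp_res1 h hY n)).1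

theorem sp_u1 (h : W.Good) {Y : ℕ → E → ℝ → V4} (hY : ∀ j, SP W.Ω (Y j)) (n : ℕ) :
    SP W.Ω (W.u1 Y n) :=
  (sp_du1 h hY n).prim h.open_ (sp_centre h.open_ (sp_res1 h hY n)).2

theorem sp_res0 (h : W.Good) {Y : ℕ → E → ℝ → V4} (hY : ∀ j, SP W.Ω (Y j)) (n : ℕ) :
    SP W.Ω (W.res0 Y n) := by
  have hc := sp_sum_ip (sp_de h hY) (sp_de h hY) (n + 1)
  have hd := (sp_u1 h hY n).de h.open_ W.e
  refine ⟨(hc.smooth.add (contDiffOn_const.mul hd.smooth)).sub (h.smoothErr (n + 1) 0),
    fun x hx s => ?_⟩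
  simp only [res0]
  rw [show W.coefEE Y (n + 1) x (s + 2 * π) = W.coefEE Y (n + 1) x s from hc.per x hx s,
    show D W.e (fun y => W.u1 Y n y (s + 2 * π)) x = D W.e (fun y => W.u1 Y n y s) x from
      hd.per x hx s, show W.Err (n + 1) x (s + 2 * π) 0 = W.Err (n + 1) x s 0 from
      h.perErr (n + 1) x hx 0 s]

theorem sp_u2 (h : W.Good) {Y : ℕ → E → ℝ → V4} (hY : ∀ j, SP W.Ω (Y j)) (n : ℕ) :
    SP W.Ω (W.u2 Y n) :=
  ⟨contDiffOn_const.mul (sp_centre h.open_ (sp_res0 h hY n)).1.smooth, fun x hx s => by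
    simp only [u2, (sp_res0 h hY n).per x hx s]⟩

theorem sp_gvv (h : W.Good) {Y : ℕ → E → ℝ → V4} (hY : ∀ j, SP W.Ω (Y j)) (n : ℕ) :
    SP W.Ω (W.gvv Y n) := by
  have hc := sp_sum_ip (sp_dv h hY) (sp_dv h hY) n
  have ha := sp_du1 h hY n
  have hb := (sp_u2 h hY n).ds h.open_
  refine ⟨(((h.smoothErr n 2).sub hc.smooth).div_const 2).sub (contDiffOn_ip
    (Smooth2.of_fst (smooth_bb h)) (smooth_lift h contDiff_fst.contDiffOn (fun _ hp => hp.1)
      ha.smooth hb.smooth)), fun x hx s => ?_⟩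
  simp only [gvv]
  rw [show W.coefVV Y n x (s + 2 * π) = W.coefVV Y n x s from hc.per x hx s, ha.per x hx s,
    show deriv (W.u2 Y n x) (s + 2 * π) = deriv (W.u2 Y n x) s from hb.per x hx s,
    show W.Err n x (s + 2 * π) 2 = W.Err n x s 2 from h.perErr n x hx 2 s]

theorem mean_cs_ne (h : W.Good) {x : E} (hx : x ∈ W.Ω) : mean (W.cs x) ≠ 0 := by
  rw [mean_cs h hx]
  exact (div_pos (aa_pos' h hx) (ell_pos h hx)).ne'

theorem sp_wvv (h : W.Good) {Y : ℕ → E → ℝ → V4} (hY : ∀ j, SP W.Ω (Y j)) (n : ℕ) :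
    SP W.Ω (W.wvv Y n) := by
  have hg := sp_gvv h hY n
  have hm : ContDiffOn ℝ ∞ (W.mvv Y n) W.Ω :=
    (Smooth2.mean (f := fun x s => W.gvv Y n x s * W.cs x s) h.open_
      (hg.smooth.mul (smooth_cs h))).div ((smooth_cs h).mean h.open_) fun x hx => mean_cs_ne h hx
  exact ⟨(hg.smooth.sub (Smooth2.of_fst hm)).div (Smooth2.of_fst (smooth_ell h))
    fun p hp => (ell_pos h hp.1).ne', fun x hx s => by simp only [wvv, hg.per x hx s]⟩

theorem sp_dq (h : W.Good) {Y : ℕ → E → ℝ → V4} (hY : ∀ j, SP W.Ω (Y j)) (n : ℕ) :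
    SP W.Ω (W.dq Y n) ∧ ∀ x ∈ W.Ω, mean (W.dq Y n x) = 0 := by
  have hw := sp_wvv h hY n
  have hc : ContDiffOn ℝ ∞ (W.cvv Y n) W.Ω :=
    (Smooth2.mean (f := fun x s => W.wvv Y n x s * W.sn x s) h.open_
      (hw.smooth.mul (smooth_sn h))).neg.div ((smooth_cs h).mean h.open_) fun x hx => mean_cs_ne h hx
  refine ⟨⟨((((hw.smooth.mul (smooth_cs h)).sub ((Smooth2.of_fst hc).mul (smooth_sn h))).smul
      (Smooth2.of_fst (smooth_tau h))).add (((hw.smooth.mul (smooth_sn h)).add
      ((Smooth2.of_fst hc).mul (smooth_cs h))).smul (Smooth2.of_fst (smooth_nu h)))),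
    fun x hx s => by simp only [dq, hw.per x hx s, per_cs x s, per_sn x s]⟩, fun x hx => ?_⟩
  have c1 := (smooth_cs h).slice hx |>.continuous
  have c2 := (smooth_sn h).slice hx |>.continuous
  have c3 := hw.cont hx
  have c4 := (sp_gvv h hY n).cont hx
  unfold dq
  rw [mean_add (by fun_prop) (by fun_prop), mean_smul_const, mean_smul_const,
    mean_sub (by fun_prop) (by fun_prop), mean_add (by fun_prop) (by fun_prop), mean_mul,
    mean_mul, mean_sn]
  have hne := mean_cs_ne h hx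
  have hl := ell_pos h hx
  have e1 : mean (fun s => W.wvv Y n x s * W.cs x s) = 0 := by
    have e : ∀ s, W.wvv Y n x s * W.cs x s =
        1 / W.ell x * (W.gvv Y n x s * W.cs x s - W.mvv Y n x * W.cs x s) := fun s => by
      rw [wvv]; field_simp
    rw [funext e, mean_mul, mean_sub (by fun_prop) (by fun_prop), mean_mul, mvv,
      div_mul_cancel₀ _ hne, sub_self, mul_zero]
  rw [e1, cvv, div_mul_cancel₀ _ hne]
  simp

theorem sp_step (h : W.Good) {Y : ℕ → E → ℝ → V4} (hY : ∀ j, SP W.Ω (Y j)) (n : ℕ) :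
    SP W.Ω (W.step Y n) := by
  obtain ⟨hq, hq0⟩ := sp_dq h hY n
  have hp := hq.prim h.open_ hq0
  refine ⟨(smooth_lift h contDiff_fst.contDiffOn (fun _ hp => hp.1) (sp_u1 h hY n).smooth
    (sp_u2 h hY n).smooth).add hp.smooth, fun x hx s => ?_⟩
  simp only [step, (sp_u1 h hY n).per x hx s, (sp_u2 h hY n).per x hx s, hp.per x hx s]

theorem hasDerivAt_step (h : W.Good) {Y : ℕ → E → ℝ → V4} (hY : ∀ j, SP W.Ω (Y j)) (n : ℕ)
    {x : E} (hx : x ∈ W.Ω) (s : ℝ) :
    HasDerivAt (W.step Y n x)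
      (W.lift x (W.du1 Y n x s) (deriv (W.u2 Y n x) s) + W.dq Y n x s) s := by
  have h1 : HasDerivAt (W.u1 Y n x) (W.du1 Y n x s) s :=
    hasDerivAt_prim ((sp_du1 h hY n).cont hx) s
  have h2 : HasDerivAt (W.u2 Y n x) (deriv (W.u2 Y n x) s) s :=
    (((sp_u2 h hY n).smooth.slice hx).differentiable (by simp) s).hasDerivAt
  have h3 := hasDerivAt_prim ((sp_dq h hY n).1.cont hx) s
  exact ((((h1.mul_const _).sub (h2.mul_const _)).div_const _).smul_const (W.Ze x)).add
    ((((h2.mul_const _).sub (h1.mul_const _)).div_const _).smul_const (W.Zee x)) |>.add h3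

theorem ip_perp_prim {f : ℝ → V4} (hf : Continuous f) {a : V4} (ha : ∀ s, ip a (f s) = 0)
    (hm : ∀ s, HasDerivAt (fun r => ip a (prim f r)) (ip a (f s)) s) (s : ℝ) :
    ip a (prim f s) = ip a (prim f 0) :=
  is_const_of_deriv_eq_zero (fun r => (hm r).differentiableAt) (fun r => by rw [(hm r).deriv, ha])
    s 0

theorem hasDerivAt_ip_const {f : ℝ → V4} {f' : V4} {s : ℝ} (hf : HasDerivAt f f' s) (a : V4) :
    HasDerivAt (fun r => ip a (f r)) (ip a f') s :=
  HasDerivAt.fun_sum fun i _ => ((hasDerivAt_pi.1 hf) i).const_mul (a i)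

theorem mean_ip {f : ℝ → V4} (hf : Continuous f) (a : V4) :
    mean (fun s => ip a (f s)) = ip a (mean f) := by
  have hi : ∀ i, Continuous fun s => f s i := fun i => (continuous_apply i).comp hf
  have e : ∀ i, mean f i = mean fun s => f s i := fun i => by
    have h1 := (ContinuousLinearMap.proj (R := ℝ) (φ := fun _ : Fin 4 => ℝ) i).intervalIntegral_comp_comm
      (hf.intervalIntegrable (μ := MeasureTheory.volume) 0 (2 * π))
    simp only [ContinuousLinearMap.proj_apply] at h1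
    simp only [mean, Pi.smul_apply, h1]
  simp only [ip, e, Fin.sum_univ_four]
  rw [mean_add (by fun_prop) (by fun_prop), mean_add (by fun_prop) (by fun_prop),
    mean_add (by fun_prop) (by fun_prop), mean_mul, mean_mul, mean_mul, mean_mul]

theorem ip_step (h : W.Good) {Y : ℕ → E → ℝ → V4} (hY : ∀ j, SP W.Ω (Y j)) (n : ℕ) {x : E}
    (hx : x ∈ W.Ω) (s : ℝ) :
    ip (W.Ze x) (W.step Y n x s) = W.u1 Y n x s ∧
      ip (W.Zee x) (W.step Y n x s) = W.u2 Y n x s := by
  obtain ⟨f1, f2, f3, f4, -⟩ := frame h hx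
  have hc := (sp_dq h hY n).1.cont hx
  have key : ∀ a : V4, ip a (W.tau x) = 0 → ip a (W.nu x) = 0 →
      ip a (prim (W.dq Y n x) s) = 0 := fun a a1 a2 => by
    have hz : ∀ r, ip a (W.dq Y n x r) = 0 := fun r => by simp [dq, a1, a2]
    have hd := fun r => hasDerivAt_ip_const (hasDerivAt_prim hc r) a
    have hconst := fun r => ip_perp_prim hc hz hd r
    have hm := mean_ip (continuous_prim hc) a
    rw [funext hconst, mean_const, mean_prim hc, ip_zero_right] at hm
    rw [hconst s, hm]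
  obtain ⟨l1, l2⟩ := ip_lift2 (h.gram_pos x hx).ne' (W.u1 Y n x s) (W.u2 Y n x s)
  exact ⟨by rw [step, ip_add_right, key _ f1 f3, lift, l1, add_zero],
    by rw [step, ip_add_right, key _ f2 f4, lift, l2, add_zero]⟩

/-- The step gives the coefficients of order `n` and the `ee` coefficient of order `n + 1`. -/
theorem step_coef (h : W.Good) {Y : ℕ → E → ℝ → V4} {n : ℕ} (hI : Inv W Y n) {x : E}
    (hx : x ∈ W.Ω) :
    let Y' := Function.update Y (n + 1) (W.step Y n)
    (∃ S : Fin 3 → ℝ, ∀ s, W.coefEE Y' n x s = W.Err n x s 0 + S 0 ∧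
      W.coefVE Y' n x s = W.Err n x s 1 + S 1 ∧ W.coefVV Y' n x s = W.Err n x s 2 + S 2) ∧
    (∃ S : ℝ, ∀ s, W.coefEE Y' (n + 1) x s = W.Err (n + 1) x s 0 + S) ∧
    ∀ s, W.dv Y' 0 x s = W.vel x s := by
  intro Y'
  obtain ⟨S0, hS0⟩ := hI.ee x hx
  have hn := hI.one
  have hY := hI.sp
  have same : ∀ j, j ≠ n + 1 → Y' j = Y j := fun j hj => Function.update_of_ne hj _ _
  have hde : ∀ j, j ≠ n + 1 → ∀ s, W.de Y' j x s = W.de Y j x s := fun j hj s => by
    simp only [de, same j hj]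
  have zero : ∀ j, n < j → Y j = 0 := fun j hj => by funext y r; exact hI.beyond j hj y r
  have hde1 : ∀ s, W.de Y (n + 1) x s = 0 := fun s => by
    simp [de, zero (n + 1) (by omega), D]
  have hdv : ∀ i, i ≤ n → ∀ s, W.dv Y' i x s =
      W.dv Y i x s + (if i = n then deriv (W.step Y n x) s else 0) := by
    intro i hi s
    by_cases hin : i = n
    · subst hin
      have e1 : Y' (i + 1) = W.step Y i := Function.update_self _ _ _
      have e2 : ∀ r, deriv (Y (i + 1) x) r = 0 := fun r => by simp [zero (i + 1) (by omega)]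
      simp only [dv, e1, e2, same i (by omega), if_true, add_zero]
    · simp only [dv, same i (by omega), same (i + 1) (by omega), hin, if_false, add_zero]
  have dv0 : ∀ s, W.dv Y' 0 x s = W.vel x s := fun s => by
    rw [hdv 0 (Nat.zero_le _), if_neg (by omega), add_zero, hI.dv0 x hx]
  refine ⟨⟨![S0, -mean (W.res1 Y n x), -2 * W.mvv Y n x], fun s => ⟨?_, ?_, ?_⟩⟩, ?_, dv0⟩
  · rw [Matrix.cons_val_zero, ← hS0 s]
    exact sum_congr rfl fun i hi => by
      have := mem_range.1 hi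
      rw [hde i (by omega), hde (n - i) (by omega)]
  · have e : W.coefVE Y' n x s = W.coefVE Y n x s + ip (deriv (W.step Y n x) s) (W.Ze x) := by
      simp only [coefVE]
      rw [sum_congr rfl fun i hi => by
        have := mem_range.1 hi
        rw [hdv i (by omega), hde (n - i) (by omega), ip_add_left]]
      rw [sum_add_distrib, sum_eq_single_of_mem (f := fun i =>
        ip (if i = n then deriv (W.step Y n x) s else 0) (W.de Y (n - i) x s)) n (by simp)
        (fun i _ hne => by rw [if_neg hne, ip_zero_left])]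
      simp [de]
    rw [e, (hasDerivAt_step h hY n hx s).deriv, ip_comm _ (W.Ze x), ip_add_right, lift,
      (ip_lift2 (h.gram_pos x hx).ne' _ _).1]
    obtain ⟨f1, -, f3, -⟩ := frame h hx
    simp [dq, f1, f3, du1, res1]
    ring
  · have e : W.coefVV Y' n x s =
        W.coefVV Y n x s + 2 * ip (W.vel x s) (deriv (W.step Y n x) s) := by
      simp only [coefVV]
      rw [sum_congr rfl fun i hi => by
        have := mem_range.1 hi
        rw [hdv i (by omega), hdv (n - i) (by omega), ip_add_left, ip_add_right, ip_add_right]]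
      simp only [sum_add_distrib]
      rw [sum_eq_single_of_mem (f := fun i => ip (W.dv Y i x s)
            (if n - i = n then deriv (W.step Y n x) s else 0)) 0 (by simp)
          (fun i hi hne => by have := mem_range.1 hi; rw [if_neg (by omega), ip_zero_right]),
        sum_eq_single_of_mem (f := fun i => ip (if i = n then deriv (W.step Y n x) s else 0)
            (W.dv Y (n - i) x s)) n (by simp)
          (fun i _ hne => by rw [if_neg hne, ip_zero_left]),
        sum_eq_zero (f := fun i => ip (if i = n then deriv (W.step Y n x) s else 0)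
            (if n - i = n then deriv (W.step Y n x) s else 0))
          (fun i hi => by
            by_cases hin : i = n
            · rw [if_neg (show ¬n - i = n by omega), ip_zero_right]
            · rw [if_neg hin, ip_zero_left])]
      simp only [Nat.sub_zero, Nat.sub_self, if_true, hI.dv0 x hx, ip_comm (deriv _ s), add_zero]
      ring
    rw [e, (hasDerivAt_step h hY n hx s).deriv, vel_eq h hx]
    obtain ⟨f1, f2, f3, f4, f5, f6, f7, -⟩ := frame h hx
    have pt : ip (W.tau x) (W.lift x (W.du1 Y n x s) (deriv (W.u2 Y n x) s)) = 0 :=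
      ip_lift2_perp (by rw [ip_comm, f1]) (by rw [ip_comm, f2]) _ _
    have pn : ip (W.nu x) (W.lift x (W.du1 Y n x s) (deriv (W.u2 Y n x) s)) = 0 :=
      ip_lift2_perp (by rw [ip_comm, f3]) (by rw [ip_comm, f4]) _ _
    have bt : ip (W.bb x) (W.tau x) = 0 := by
      rw [ip_comm]; exact ip_lift2_perp (by rw [ip_comm, f1]) (by rw [ip_comm, f2]) _ _
    have bn : ip (W.bb x) (W.nu x) = 0 := by
      rw [ip_comm]; exact ip_lift2_perp (by rw [ip_comm, f3]) (by rw [ip_comm, f4]) _ _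
    have circ : W.cs x s ^ 2 + W.sn x s ^ 2 = 1 := by
      simp only [cs, sn]; field_simp; ring
    simp only [ip_add_left, ip_add_right, ip_smul_left, ip_smul_right, dq, pt, pn, bt, bn, f5, f6,
      f7, ip_comm (W.nu x) (W.tau x)]
    simp only [Matrix.cons_val_two, Matrix.tail_cons, Matrix.head_cons, gvv, wvv]
    have hl := (ell_pos h hx).ne'
    field_simp
    linear_combination (2 * ((W.Err n x s 2 - W.coefVV Y n x s) / 2 -
      ip (W.bb x) (W.lift x (W.du1 Y n x s) (deriv (W.u2 Y n x) s)) - W.mvv Y n x)) *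
      W.ell x * circ
  · refine ⟨mean (W.res0 Y n x), fun s => ?_⟩
    have hst : SP W.Ω (W.step Y n) := sp_step h hY n
    have e : W.coefEE Y' (n + 1) x s = W.coefEE Y (n + 1) x s +
        2 * ip (W.Ze x) (D W.e (fun y => W.step Y n y s) x) := by
      simp only [coefEE]
      rw [sum_range_succ', sum_range_succ, sum_range_succ' _ (n + 1), sum_range_succ]
      rw [sum_congr rfl fun i hi => by
        have := mem_range.1 hi
        rw [hde (i + 1) (by omega), hde (n + 1 - (i + 1)) (by omega)]]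
      have e0 : W.de Y' 0 x s = W.Ze x := by simp [de]
      have e0' : W.de Y 0 x s = W.Ze x := by simp [de]
      have e1 : W.de Y' (n + 1) x s = D W.e (fun y => W.step Y n y s) x := by
        simp [de, Y']
      simp only [Nat.sub_zero, Nat.sub_self, e0, e0', e1, hde1, ip_zero_left, ip_zero_right,
        add_zero, ip_comm (D W.e _ x)]
      ring
    have e2 : ip (W.Ze x) (D W.e (fun y => W.step Y n y s) x) =
        D W.e (fun y => W.u1 Y n y s) x - W.u2 Y n x s := by
      have d1 := hst.smooth.differentiableAt h.open_ hx s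
      have d2 : DifferentiableAt ℝ W.Ze x :=
        ((smooth_Ze h).differentiableOn (by simp)).differentiableAt (h.open_.mem_nhds hx)
      have ev : (fun y => W.u1 Y n y s) =ᶠ[nhds x] fun y => ip (W.Ze y) (W.step Y n y s) := by
        filter_upwards [h.open_.mem_nhds hx] with y hy using ((ip_step h hY n hy s).1).symm
      have hp : HasFDerivAt (fun y => ip (W.Ze y) (W.step Y n y s)) _ x :=
        HasFDerivAt.fun_sum fun i _ =>
          ((hasFDerivAt_pi'.1 d2.hasFDerivAt) i).mul ((hasFDerivAt_pi'.1 d1.hasFDerivAt) i)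
      rw [← (ip_step h hY n hx s).2]
      simp only [D]
      rw [ev.fderiv_eq, hp.fderiv]
      simp only [ip, Zee, D, ContinuousLinearMap.coe_sum', Finset.sum_apply,
        ContinuousLinearMap.add_apply, ContinuousLinearMap.smul_apply, smul_eq_mul,
        ContinuousLinearMap.comp_apply, ContinuousLinearMap.proj_apply, ← sum_sub_distrib]
      exact sum_congr rfl fun i _ => by ring
    rw [e, e2, u2, res0]
    ring

theorem inv_upTo (h : W.Good) : ∀ m, Inv W (W.upTo (m + 1)) (m + 1) := by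
  intro m
  induction m with
  | zero =>
    have hY1 : SP W.Ω W.Y1 := SP.prim h.open_ ⟨smooth_dY1 h, fun x _ => per_dY1 x⟩
      fun x hx => mean_dY1 h hx
    have e1 : W.upTo 1 1 = W.Y1 := Function.update_self _ _ _
    have e : ∀ j, j ≠ 1 → W.upTo 1 j = fun _ _ => 0 := fun j hj => Function.update_of_ne hj _ _
    have hd : ∀ x ∈ W.Ω, ∀ s, HasDerivAt (W.Y1 x) (W.dY1 x s) s := fun x hx s =>
      hasDerivAt_prim ((smooth_dY1 h).slice hx).continuous s
    refine ⟨le_rfl, fun j => ?_, fun j hj x s => by rw [e j (by omega)], fun x hx s => ?_,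
      fun x hx => ⟨0, fun s => ?_⟩⟩
    · rcases eq_or_ne j 1 with rfl | hj
      · rwa [e1]
      · rw [e j hj]; exact ⟨contDiffOn_const, fun _ _ _ => rfl⟩
    · simp [dv, vel, e1, (hd x hx s).deriv]
    · obtain ⟨f1, f2, f3, f4, -⟩ := frame h hx
      have hperp : ∀ y ∈ W.Ω, ∀ r, ip (W.Ze y) (W.Y1 y r) = 0 ∧ ip (W.Zee y) (W.Y1 y r) = 0 := by
        intro y hy r
        obtain ⟨g1, g2, g3, g4, -⟩ := frame h hy
        have hc := ((smooth_dY1 h).slice hy).continuous
        have key : ∀ a : V4, ip a (W.tau y) = 0 → ip a (W.nu y) = 0 →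
            ip a (W.Y1 y r) = 0 := fun a a1 a2 => by
          have hz : ∀ t, ip a (W.dY1 y t) = 0 := fun t => by simp [dY1, a1, a2]
          have hd := fun t => hasDerivAt_ip_const (hasDerivAt_prim hc t) a
          have hconst := fun t => ip_perp_prim hc hz hd t
          have hm := mean_ip (continuous_prim hc) a
          rw [funext hconst, mean_const, mean_prim hc, ip_zero_right] at hm
          show ip a (prim (W.dY1 y) r) = 0
          rw [hconst r, hm]
        exact ⟨key _ g1 g3, key _ g2 g4⟩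
      have d1 := hY1.smooth.differentiableAt h.open_ hx s
      have d2 : DifferentiableAt ℝ W.Ze x :=
        ((smooth_Ze h).differentiableOn (by simp)).differentiableAt (h.open_.mem_nhds hx)
      have ev : (fun y => ip (W.Ze y) (W.Y1 y s)) =ᶠ[nhds x] fun _ => (0 : ℝ) := by
        filter_upwards [h.open_.mem_nhds hx] with y hy using (hperp y hy s).1
      have hp : HasFDerivAt (fun y => ip (W.Ze y) (W.Y1 y s)) _ x :=
        HasFDerivAt.fun_sum fun i _ =>
          ((hasFDerivAt_pi'.1 d2.hasFDerivAt) i).mul ((hasFDerivAt_pi'.1 d1.hasFDerivAt) i)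
      have k0 := congrArg (fun L : E →L[ℝ] ℝ => L W.e) (hp.fderiv.symm.trans ev.fderiv_eq)
      simp only [fderiv_fun_const, Pi.zero_apply, ContinuousLinearMap.zero_apply,
        ContinuousLinearMap.coe_sum', Finset.sum_apply, ContinuousLinearMap.add_apply,
        ContinuousLinearMap.smul_apply, smul_eq_mul, ContinuousLinearMap.comp_apply,
        ContinuousLinearMap.proj_apply, sum_add_distrib] at k0
      have k1 : ip (W.Zee x) (W.Y1 x s) = 0 := (hperp x hx s).2
      simp only [coefEE, sum_range_succ, sum_range_zero, zero_add, Nat.sub_zero, Nat.sub_self, de,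
        e1, if_true, one_ne_zero, if_false, h.err1 x hx s, ip, Zee, D] at k1 ⊢
      simp only [mul_comm] at k0 k1 ⊢
      linarith
  | succ m ih =>
    have e : W.upTo (m + 2) =
        Function.update (W.upTo (m + 1)) (m + 2) (W.step (W.upTo (m + 1)) (m + 1)) := rfl
    rw [e]
    refine ⟨by omega, fun j => ?_, fun j hj x s => ?_,
      fun x hx => (step_coef h ih hx).2.2, fun x hx => (step_coef h ih hx).2.1⟩
    · rcases eq_or_ne j (m + 2) with rfl | hj
      · rw [Function.update_self]; exact sp_step h ih.sp _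
      · rw [Function.update_of_ne hj]; exact ih.sp j
    · rw [Function.update_of_ne (by omega)]; exact ih.beyond j (by omega) x s

theorem upTo_stable (j : ℕ) : ∀ m, j ≤ m → W.upTo m j = W.upTo j j := fun m hm => by
  induction m, hm using Nat.le_induction with
  | base => rfl
  | succ m hm ih =>
    rw [← ih]
    match m with
    | 0 => obtain rfl : j = 0 := by omega
           exact Function.update_of_ne (by omega) _ _
    | k + 1 => exact Function.update_of_ne (by omega) _ _

/-- **Lemma A, the coefficients.** In each order `1 ≤ n ≤ N` the correctors leave the prescribed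
term plus a tensor independent of the fast variable. -/
theorem coef_eq (h : W.Good) {N n : ℕ} (hn : 1 ≤ n) (hN : n ≤ N) {x : E} (hx : x ∈ W.Ω) :
    ∃ S : Fin 3 → ℝ, ∀ s, W.coefEE (W.upTo (N + 1)) n x s = W.Err n x s 0 + S 0 ∧
      W.coefVE (W.upTo (N + 1)) n x s = W.Err n x s 1 + S 1 ∧
      W.coefVV (W.upTo (N + 1)) n x s = W.Err n x s 2 + S 2 := by
  obtain ⟨m, rfl⟩ : ∃ m, n = m + 1 := ⟨n - 1, by omega⟩
  obtain ⟨⟨S, hS⟩, -⟩ := step_coef h (inv_upTo h m) hx
  refine ⟨S, fun s => ?_⟩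
  have hagree : ∀ j, j ≤ m + 2 → W.upTo (N + 1) j = W.upTo (m + 2) j := fun j hj => by
    rw [upTo_stable j _ (by omega), upTo_stable j _ hj]
  have e1 : ∀ i, i ≤ m + 1 → W.de (W.upTo (N + 1)) i x s = W.de (W.upTo (m + 2)) i x s :=
    fun i hi => by simp only [de, hagree i (by omega)]
  have e2 : ∀ i, i ≤ m + 1 → W.dv (W.upTo (N + 1)) i x s = W.dv (W.upTo (m + 2)) i x s :=
    fun i hi => by simp only [dv, hagree i (by omega), hagree (i + 1) (by omega)]
  obtain ⟨h0, h1, h2⟩ := hS s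
  refine ⟨?_, ?_, ?_⟩
  · rw [← h0]; exact sum_congr rfl fun i hi => by
      have := mem_range.1 hi
      rw [e1 i (by omega), e1 _ (by omega)]; rfl
  · rw [← h1]; exact sum_congr rfl fun i hi => by
      have := mem_range.1 hi
      rw [e2 i (by omega), e1 _ (by omega)]; rfl
  · rw [← h2]; exact sum_congr rfl fun i hi => by
      have := mem_range.1 hi
      rw [e2 i (by omega), e2 _ (by omega)]; rfl

end Data

end Vale.Agent.P205.Wave
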