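import Vale.Agent.P205.Wave.Cost
import Vale.Agent.P205.Wave.Correct

/-!
Costs of integrals in the fast variable: means and zero mean primitives.
-/

noncomputable section

open Set Finset Real
open scoped ContDiff

namespace Vale.Agent.P205.Wave

variable {X : Type} [NormedAddCommGroup X] [NormedSpace ℝ X] [FiniteDimensional ℝ X]
variable {G : Type} [NormedAddCommGroup G] [NormedSpace ℝ G] [CompleteSpace G]

theorem norm_iteratedFDeriv_int01 {Ω : Set X} (hΩ : IsOpen Ω) (i : ℕ) : ∀ {G : Type}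
    [NormedAddCommGroup G] [NormedSpace ℝ G] [CompleteSpace G] {F : X × ℝ → G},
    ContDiffOn ℝ ∞ F (Ω ×ˢ univ) → ∀ x ∈ Ω, ∀ C : ℝ, (∀ t ∈ Icc (0 : ℝ) 1,
      ‖iteratedFDeriv ℝ i (fun y => F (y, t)) x‖ ≤ C) →
      ‖iteratedFDeriv ℝ i (fun y => ∫ t in (0 : ℝ)..1, F (y, t)) x‖ ≤ C := by
  induction i with
  | zero =>
    intro G _ _ _ F _ x _ C hC
    simp only [norm_iteratedFDeriv_zero] at hC ⊢
    refine (intervalIntegral.norm_integral_le_of_norm_le_const fun t ht => hC t ?_).trans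
      (le_of_eq (by simp))
    rw [Set.uIoc_of_le zero_le_one] at ht
    exact ⟨ht.1.le, ht.2⟩
  | succ i ih =>
    intro G _ _ _ F hF x hx C hC
    have ho : IsOpen (Ω ×ˢ (univ : Set ℝ)) := hΩ.prod isOpen_univ
    have hD : ContDiffOn ℝ ∞ (fun p : X × ℝ =>
        (fderiv ℝ F p).comp (ContinuousLinearMap.inl ℝ X ℝ)) (Ω ×ˢ univ) :=
      (hF.fderiv_of_isOpen ho (by simp)).clm_comp contDiffOn_const
    have e : (fderiv ℝ fun y => ∫ t in (0 : ℝ)..1, F (y, t)) =ᶠ[nhds x] fun y =>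
        ∫ t in (0 : ℝ)..1, (fderiv ℝ F (y, t)).comp (ContinuousLinearMap.inl ℝ X ℝ) := by
      filter_upwards [hΩ.mem_nhds hx] with y hy using
        (hasFDerivAt_int01 hΩ (hF.of_le (by simp)) hy).fderiv
    rw [← norm_iteratedFDeriv_fderiv, (e.iteratedFDeriv ℝ i).eq_of_nhds]
    refine ih hD x hx C fun t ht => ?_
    have e2 : (fun y => (fderiv ℝ F (y, t)).comp (ContinuousLinearMap.inl ℝ X ℝ)) =ᶠ[nhds x]
        fderiv ℝ fun y => F (y, t) := by
      filter_upwards [hΩ.mem_nhds hx] with y hy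
      have h1 : HasFDerivAt (fun z => F (z, t)) _ y :=
        (((hF.differentiableOn (by simp)).differentiableAt
          (ho.mem_nhds ⟨hy, trivial⟩)).hasFDerivAt).comp y (hasFDerivAt_prodMk_left y t)
      exact h1.fderiv.symm
    rw [(e2.iteratedFDeriv ℝ i).eq_of_nhds, norm_iteratedFDeriv_fderiv]
    exact hC t ht

variable {ι : Type} {σ : Scale ι X}

/-- The charts with the fast variable added. -/
def Scale.fast (σ : Scale ι X) : Scale ι (X × ℝ) where
  S t := σ.S t ×ˢ univ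
  B := σ.B
  isOpen t := (σ.isOpen t).prod isOpen_univ
  one_le := σ.one_le

/-- A family on the charts seen as independent of the fast variable. -/
theorem Cost.fast {w : ι → X → ℝ} {F : Type} [NormedAddCommGroup F] [NormedSpace ℝ F]
    {f : ι → X → F} (hf : Cost σ w f) :
    Cost σ.fast (fun t p => w t p.1) fun t p => f t p.1 := by
  refine ⟨fun t => (hf.smooth t).comp contDiff_fst.contDiffOn fun _ hp => hp.1,
    fun t p hp => hf.nonneg t p.1 hp.1, fun i => ?_⟩
  obtain ⟨C, hC0, hC⟩ := hf.bound i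
  refine ⟨C, hC0, fun t p hp => ?_⟩
  have e := (ContinuousLinearMap.fst ℝ X ℝ).iteratedFDerivWithin_comp_right (i := i)
    (hf.smooth t) (σ.isOpen t).uniqueDiffOn
    (((σ.isOpen t).preimage (ContinuousLinearMap.fst ℝ X ℝ).continuous).uniqueDiffOn)
    (x := p) hp.1 (by exact WithTop.coe_le_coe.2 le_top)
  rw [iteratedFDerivWithin_of_isOpen i
      ((σ.isOpen t).preimage (ContinuousLinearMap.fst ℝ X ℝ).continuous) hp.1,
    iteratedFDerivWithin_of_isOpen i (σ.isOpen t)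
      (show (ContinuousLinearMap.fst ℝ X ℝ) p ∈ σ.S t from hp.1)] at e
  rw [show (fun q : X × ℝ => f t q.1) = f t ∘ ContinuousLinearMap.fst ℝ X ℝ from rfl, e]
  refine (ContinuousMultilinearMap.norm_compContinuousLinearMap_le _ _).trans ?_
  refine le_trans ?_ (hC t p.1 hp.1)
  refine mul_le_of_le_one_right (norm_nonneg _) (Finset.prod_le_one (fun _ _ => norm_nonneg _)
    fun _ _ => ContinuousLinearMap.opNorm_le_bound _ zero_le_one fun q => ?_)
  rw [one_mul]
  exact norm_fst_le q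

variable {w : ι → X → ℝ} {f : ι → X → ℝ → G}

/-- Costs of the primitive from `0`, on one period and more. -/
theorem Cost.integral_bound (hf : Cost σ.fast (fun t p => w t p.1) fun t p => f t p.1 p.2)
    (i : ℕ) : ∃ C, 0 ≤ C ∧ ∀ t, ∀ p ∈ σ.fast.S t, |p.2| ≤ 8 →
      ‖iteratedFDeriv ℝ i (fun q : X × ℝ => ∫ u in (0 : ℝ)..q.2, f t q.1 u) p‖ ≤
        C * w t p.1 * σ.B t ^ i := by
  choose C hC0 hC using hf.bound
  refine ⟨∑ j ∈ Finset.range (i + 1), i.choose j * 8 * C (i - j),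
    sum_nonneg fun j _ => mul_nonneg (by positivity) (hC0 _), fun t p hp hs => ?_⟩
  have hF : ContDiffOn ℝ ∞ (fun q : (X × ℝ) × ℝ => q.1.2 • f t q.1.1 (q.1.2 * q.2))
      ((σ.S t ×ˢ univ) ×ˢ univ) :=
    (contDiff_snd.comp contDiff_fst).contDiffOn.smul
      ((hf.smooth t).comp (f := fun q : (X × ℝ) × ℝ => (q.1.1, q.1.2 * q.2))
        ((contDiff_fst.comp contDiff_fst).prodMk
          ((contDiff_snd.comp contDiff_fst).mul contDiff_snd)).contDiffOn
        fun q hq => ⟨hq.1.1, trivial⟩)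
  have e : (fun q : X × ℝ => ∫ u in (0 : ℝ)..q.2, f t q.1 u) =
      fun q => ∫ u in (0 : ℝ)..1, q.2 • f t q.1 (q.2 * u) := by
    funext q
    rw [intervalIntegral.integral_smul]
    simp
  rw [e]
  refine norm_iteratedFDeriv_int01 (σ.fast.isOpen t) i hF p hp _ fun u hu => ?_
  set L : X × ℝ →L[ℝ] X × ℝ :=
    (ContinuousLinearMap.fst ℝ X ℝ).prod (u • ContinuousLinearMap.snd ℝ X ℝ) with hL
  have hLn : ‖L‖ ≤ 1 := ContinuousLinearMap.opNorm_le_bound _ zero_le_one fun q => by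
    rw [one_mul, hL, ContinuousLinearMap.prod_apply, Prod.norm_def]
    refine max_le (norm_fst_le q) ?_
    simp only [ContinuousLinearMap.smul_apply, ContinuousLinearMap.coe_snd', norm_smul]
    exact (mul_le_of_le_one_left (norm_nonneg _)
      (by rw [Real.norm_eq_abs, abs_of_nonneg hu.1]; exact hu.2)).trans (norm_snd_le q)
  have hbil := (ContinuousLinearMap.lsmul ℝ ℝ : ℝ →L[ℝ] G →L[ℝ] G)
  have ho := σ.fast.isOpen t
  have hmap : MapsTo L (σ.fast.S t) (σ.fast.S t) := fun q hq => ⟨hq.1, trivial⟩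
  have hg : ContDiffOn ℝ ∞ (fun q => f t (L q).1 (L q).2) (σ.fast.S t) :=
    (hf.smooth t).comp L.contDiff.contDiffOn hmap
  have key := (ContinuousLinearMap.lsmul ℝ ℝ : ℝ →L[ℝ] G →L[ℝ] G).norm_iteratedFDerivWithin_le_of_bilinear
    (f := fun q : X × ℝ => q.2) (g := fun q => f t (L q).1 (L q).2) contDiff_snd.contDiffOn hg
    ho.uniqueDiffOn hp (n := i) (by exact WithTop.coe_le_coe.2 le_top)
  simp only [ContinuousLinearMap.lsmul_apply, iteratedFDerivWithin_of_isOpen _ ho hp] at key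
  have e2 : (fun q : X × ℝ => q.2 • f t q.1 (q.2 * u)) = fun q => q.2 • f t (L q).1 (L q).2 := by
    funext q; simp [hL, mul_comm]
  rw [e2]
  refine key.trans ?_
  refine (mul_le_mul_of_nonneg_right ContinuousLinearMap.opNorm_lsmul_le
    (sum_nonneg fun j _ => by positivity)).trans ?_
  rw [one_mul, sum_mul, sum_mul]
  refine sum_le_sum fun j hj => ?_
  have h1 : ‖iteratedFDeriv ℝ j (fun q : X × ℝ => q.2) p‖ ≤ 8 * σ.B t ^ j := by
    have hB : 1 ≤ σ.B t ^ j := one_le_pow₀ (σ.one_le t)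
    match j with
    | 0 => simpa using hs
    | 1 =>
      rw [norm_iteratedFDeriv_one, show (fun q : X × ℝ => q.2) =
        ⇑(ContinuousLinearMap.snd ℝ X ℝ) from rfl, ContinuousLinearMap.fderiv]
      refine (ContinuousLinearMap.opNorm_le_bound _ zero_le_one fun q => ?_).trans
        (show (1 : ℝ) ≤ 8 * σ.B t ^ 1 by linarith)
      rw [one_mul]; exact norm_snd_le q
    | l + 2 =>
      rw [← norm_iteratedFDeriv_fderiv, show fderiv ℝ (fun q : X × ℝ => q.2) =
        fun _ => ContinuousLinearMap.snd ℝ X ℝ from funext fun _ =>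
          (ContinuousLinearMap.snd ℝ X ℝ).fderiv, iteratedFDeriv_succ_const]
      simp only [Pi.zero_apply, norm_zero]
      positivity
  have h2 : ‖iteratedFDeriv ℝ (i - j) (fun q => f t (L q).1 (L q).2) p‖ ≤
      C (i - j) * w t p.1 * σ.B t ^ (i - j) := by
    have ho' := ho.preimage L.continuous
    have hp' : p ∈ L ⁻¹' σ.fast.S t := hmap hp
    have e := L.iteratedFDerivWithin_comp_right (i := i - j) (hf.smooth t) ho.uniqueDiffOn
      ho'.uniqueDiffOn (x := p) (hmap hp) (by exact WithTop.coe_le_coe.2 le_top)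
    rw [iteratedFDerivWithin_of_isOpen _ ho' hp', iteratedFDerivWithin_of_isOpen _ ho (hmap hp)]
      at e
    rw [show (fun q => f t (L q).1 (L q).2) = (fun q : X × ℝ => f t q.1 q.2) ∘ L from rfl, e]
    refine (ContinuousMultilinearMap.norm_compContinuousLinearMap_le _ _).trans ?_
    refine (mul_le_of_le_one_right (norm_nonneg _) (Finset.prod_le_one (fun _ _ => norm_nonneg _)
      fun _ _ => hLn)).trans ((hC (i - j) t (L p) (hmap hp)).trans (le_of_eq ?_))
    simp [hL, Scale.fast]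
  refine (mul_le_mul (mul_le_mul_of_nonneg_left h1 (Nat.cast_nonneg _)) h2 (norm_nonneg _)
    (mul_nonneg (Nat.cast_nonneg _) (mul_nonneg (by norm_num)
      (pow_nonneg (zero_le_one.trans (σ.one_le t)) j)))).trans (le_of_eq ?_)
  have hp2 : σ.B t ^ j * σ.B t ^ (i - j) = σ.B t ^ i := by
    rw [← pow_add, Nat.add_sub_cancel' (Nat.lt_succ_iff.1 (Finset.mem_range.1 hj))]
  rw [← hp2]
  ring

/-- The mean keeps the cost. -/
theorem Cost.mean (hf : Cost σ.fast (fun t p => w t p.1) fun t p => f t p.1 p.2) :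
    Cost σ w fun t x => Wave.mean (f t x) := by
  refine ⟨fun t => Smooth2.mean (σ.isOpen t) (hf.smooth t),
    fun t x hx => hf.nonneg t (x, 0) ⟨hx, trivial⟩, fun i => ?_⟩
  obtain ⟨C, hC0, hC⟩ := hf.integral_bound i
  refine ⟨‖(1 / (2 * π))‖ * C, mul_nonneg (norm_nonneg _) hC0, fun t x hx => ?_⟩
  have ho := σ.fast.isOpen t
  have hI : ContDiffOn ℝ ∞ (fun q : X × ℝ => ∫ u in (0 : ℝ)..q.2, f t q.1 u) (σ.fast.S t) :=
    Smooth2.integral (σ.isOpen t) (hf.smooth t)
  have hv : ContDiffAt ℝ i (fun q : X × ℝ => ∫ u in (0 : ℝ)..q.2, f t q.1 u) (x, 2 * π) :=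
    (hI.contDiffAt (ho.mem_nhds ⟨hx, trivial⟩)).of_le (by exact WithTop.coe_le_coe.2 le_top)
  have hs : ContDiffAt ℝ i (fun y => ∫ u in (0 : ℝ)..(2 * π), f t y u) x :=
    hv.comp (f := fun y => (y, 2 * π)) x (contDiff_prodMk_left (2 * π)).contDiffAt
  unfold Wave.mean
  rw [show (fun y => (1 / (2 * π)) • ∫ u in (0 : ℝ)..(2 * π), f t y u) =
    (1 / (2 * π)) • fun y => ∫ u in (0 : ℝ)..(2 * π), f t y u from rfl,
    iteratedFDeriv_const_smul_apply hs, norm_smul]
  rw [mul_assoc ‖(1 / (2 * π))‖ C, mul_assoc ‖(1 / (2 * π))‖]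
  refine mul_le_mul_of_nonneg_left ?_ (norm_nonneg _)
  set L := ContinuousLinearMap.inl ℝ X ℝ with hL
  have e : (fun y => ∫ u in (0 : ℝ)..(2 * π), f t y u) =
      ((fun q : X × ℝ => ∫ u in (0 : ℝ)..q.2, f t q.1 u) ∘ fun q => q + (0, 2 * π)) ∘ L := by
    funext y; simp [hL]
  have hsh : IsOpen ((fun q : X × ℝ => q + (0, 2 * π)) ⁻¹' σ.fast.S t) :=
    ho.preimage (by fun_prop)
  have hI2 : ContDiffOn ℝ ∞ ((fun q : X × ℝ => ∫ u in (0 : ℝ)..q.2, f t q.1 u) ∘
      fun q => q + (0, 2 * π)) ((fun q : X × ℝ => q + (0, 2 * π)) ⁻¹' σ.fast.S t) :=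
    hI.comp (by fun_prop) fun q hq => hq
  have hx0 : L x ∈ (fun q : X × ℝ => q + (0, 2 * π)) ⁻¹' σ.fast.S t := by
    refine ⟨?_, trivial⟩; simp [hL, hx]
  have e2 := L.iteratedFDerivWithin_comp_right (i := i) hI2 hsh.uniqueDiffOn
    (hsh.preimage L.continuous).uniqueDiffOn (x := x) hx0 (by exact WithTop.coe_le_coe.2 le_top)
  rw [iteratedFDerivWithin_of_isOpen _ (hsh.preimage L.continuous) hx0,
    iteratedFDerivWithin_of_isOpen _ hsh hx0] at e2
  rw [e, e2]
  refine (ContinuousMultilinearMap.norm_compContinuousLinearMap_le _ _).trans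
    ((mul_le_of_le_one_right (norm_nonneg _) (Finset.prod_le_one (fun _ _ => norm_nonneg _)
      fun _ _ => ContinuousLinearMap.opNorm_le_bound _ zero_le_one fun y => ?_)).trans ?_)
  · simp [hL, Prod.norm_def]
  · simp only [Function.comp_def]
    rw [iteratedFDeriv_comp_add_right
      (f := fun q : X × ℝ => ∫ u in (0 : ℝ)..q.2, f t q.1 u)]
    have h := hC t (L x + (0, 2 * π)) hx0 (by
      simp only [hL, ContinuousLinearMap.inl_apply, Prod.snd_add, zero_add]
      rw [abs_of_pos (by positivity)]; linarith [pi_le_four])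
    simpa [hL] using h

/-- The zero mean primitive keeps the cost, for periodic families of zero mean. -/
theorem Cost.prim (hf : Cost σ.fast (fun t p => w t p.1) fun t p => f t p.1 p.2)
    (hp : ∀ t, ∀ x ∈ σ.S t, Function.Periodic (f t x) (2 * π))
    (h0 : ∀ t, ∀ x ∈ σ.S t, Wave.mean (f t x) = 0) :
    Cost σ.fast (fun t p => w t p.1) fun t p => Wave.prim (f t p.1) p.2 := by
  have hsm : ∀ t, ContDiffOn ℝ ∞ (fun p : X × ℝ => Wave.prim (f t p.1) p.2) (σ.fast.S t) :=
    fun t => Smooth2.prim (σ.isOpen t) (hf.smooth t)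
  refine ⟨hsm, hf.nonneg, fun i => ?_⟩
  obtain ⟨C, hC0, hC⟩ := hf.integral_bound i
  have hIm : Cost σ w fun t x => Wave.mean fun r => ∫ u in (0 : ℝ)..r, f t x u := by
    have hI : ∀ t, ∀ x ∈ σ.S t, Function.Periodic (fun r => ∫ u in (0 : ℝ)..r, f t x u) (2 * π) :=
      fun t x hx r => by
        have h := periodic_prim ((Smooth2.slice (f := f t) (hf.smooth t) hx).continuous)
          (hp t x hx) (h0 t x hx) r
        simpa [Wave.prim] using h
    refine Cost.mean (f := fun t x r => ∫ u in (0 : ℝ)..r, f t x u)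
      ⟨fun t => Smooth2.integral (σ.isOpen t) (hf.smooth t), hf.nonneg, fun j => ?_⟩
    obtain ⟨C', hC0', hC'⟩ := hf.integral_bound j
    refine ⟨C', hC0', fun t p hp' => ?_⟩
    obtain ⟨n, hn⟩ : ∃ n : ℤ, p.2 - n * (2 * π) ∈ Icc 0 (2 * π) :=
      ⟨⌊p.2 / (2 * π)⌋, by
        have h1 := Int.floor_le (p.2 / (2 * π))
        have h2 := Int.lt_floor_add_one (p.2 / (2 * π))
        rw [le_div_iff₀ (by positivity)] at h1
        rw [div_lt_iff₀ (by positivity)] at h2
        constructor <;> linarith⟩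
    have e : (fun q : X × ℝ => ∫ u in (0 : ℝ)..q.2, f t q.1 u) =ᶠ[nhds p]
        fun q => (fun q : X × ℝ => ∫ u in (0 : ℝ)..q.2, f t q.1 u) (q + (0, -(n * (2 * π)))) := by
      filter_upwards [(σ.fast.isOpen t).mem_nhds hp'] with q hq
      simp only [Prod.fst_add, Prod.snd_add, add_zero, ← sub_eq_add_neg]
      exact ((hI t q.1 hq.1).sub_int_mul_eq n).symm
    rw [(e.iteratedFDeriv ℝ j).eq_of_nhds, iteratedFDeriv_comp_add_right
      (f := fun q : X × ℝ => ∫ u in (0 : ℝ)..q.2, f t q.1 u)]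
    have h := hC' t (p + (0, -(n * (2 * π)))) ⟨by simpa using hp'.1, trivial⟩ (by
      simp only [Prod.snd_add, ← sub_eq_add_neg]
      rw [abs_of_nonneg hn.1]; linarith [hn.2, pi_le_four])
    simpa [Scale.fast] using h
  obtain ⟨C', hC0', hC'⟩ := hIm.fast.bound i
  refine ⟨C + C', add_nonneg hC0 hC0', fun t p hp' => ?_⟩
  obtain ⟨n, hn⟩ : ∃ n : ℤ, p.2 - n * (2 * π) ∈ Icc 0 (2 * π) :=
    ⟨⌊p.2 / (2 * π)⌋, by
      have h1 := Int.floor_le (p.2 / (2 * π))
      have h2 := Int.lt_floor_add_one (p.2 / (2 * π))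
      rw [le_div_iff₀ (by positivity)] at h1
      rw [div_lt_iff₀ (by positivity)] at h2
      constructor <;> linarith⟩
  have e : (fun q : X × ℝ => Wave.prim (f t q.1) q.2) =ᶠ[nhds p]
      fun q => (fun q : X × ℝ => Wave.prim (f t q.1) q.2) (q + (0, -(n * (2 * π)))) := by
    filter_upwards [(σ.fast.isOpen t).mem_nhds hp'] with q hq
    simp only [Prod.fst_add, Prod.snd_add, add_zero, ← sub_eq_add_neg]
    exact ((periodic_prim ((Smooth2.slice (f := f t) (hf.smooth t) hq.1).continuous)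
      (hp t q.1 hq.1) (h0 t q.1 hq.1)).sub_int_mul_eq n).symm
  rw [(e.iteratedFDeriv ℝ i).eq_of_nhds, iteratedFDeriv_comp_add_right
    (f := fun q : X × ℝ => Wave.prim (f t q.1) q.2)]
  have hq : p + (0, -(n * (2 * π))) ∈ σ.fast.S t := ⟨by simpa using hp'.1, trivial⟩
  have hI : ContDiffAt ℝ i (fun q : X × ℝ => ∫ u in (0 : ℝ)..q.2, f t q.1 u)
      (p + (0, -(n * (2 * π)))) :=
    ((Smooth2.integral (σ.isOpen t) (hf.smooth t)).contDiffAt
      ((σ.fast.isOpen t).mem_nhds hq)).of_le (by exact WithTop.coe_le_coe.2 le_top)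
  rw [show (fun q : X × ℝ => Wave.prim (f t q.1) q.2) = (fun q => ∫ u in (0 : ℝ)..q.2, f t q.1 u) -
      fun q => Wave.mean fun r => ∫ u in (0 : ℝ)..r, f t q.1 u from rfl,
    iteratedFDeriv_sub_apply hI (hIm.fast.contDiffAt hq i)]
  refine (norm_sub_le _ _).trans ((add_le_add (hC t _ hq (by
    simp only [Prod.snd_add, ← sub_eq_add_neg]
    rw [abs_of_nonneg hn.1]; linarith [hn.2, pi_le_four])) (hC' t _ hq)).trans (le_of_eq ?_))
  simp only [Prod.fst_add, add_zero, Scale.fast]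
  ring

end Vale.Agent.P205.Wave
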