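import Vale.Agent.P205.Wave.Frame

/-!
One wave to every order: the correctors and their coefficient identities.
-/

noncomputable section

open Set Finset Real
open scoped ContDiff

namespace Vale.Agent.P205.Wave

variable {E : Type} [NormedAddCommGroup E] [NormedSpace ℝ E] [FiniteDimensional ℝ E]

/-- The data of one wave in a chart: `e` spans the kernel of the phase, `v` is normalised by it. -/
structure Data (E : Type) [NormedAddCommGroup E] [NormedSpace ℝ E] where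
  /-- The chart domain, possibly with parameters. -/
  Ω : Set E
  /-- Direction along the phase. -/
  v : E
  /-- Direction in the kernel of the phase. -/
  e : E
  /-- The map before the wave. -/
  Z : E → V4
  /-- The amplitude. -/
  rho : E → ℝ
  /-- Prescribed oscillatory terms, by order; components `ee, ve, vv`. -/
  Err : ℕ → E → ℝ → Fin 3 → ℝ

namespace Data

variable (W : Data E)

def Ze : E → V4 := D W.e W.Z
def Zee : E → V4 := D W.e W.Ze
def Zv : E → V4 := D W.v W.Z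
def lift (x : E) (a b : ℝ) : V4 := lift2 (W.Ze x) (W.Zee x) a b
def bb (x : E) : V4 := W.lift x (ip (W.Zv x) (W.Ze x)) (ip (W.Zv x) (W.Zee x))
def aa (x : E) : ℝ := Real.sqrt (ip (W.Zv x - W.bb x) (W.Zv x - W.bb x))
def tau (x : E) : V4 := (1 / W.aa x) • (W.Zv x - W.bb x)
def nu (x : E) : V4 :=
  (1 / Real.sqrt (gram2 (W.Ze x) (W.Zee x))) • cross (W.Ze x) (W.Zee x) (W.tau x)
def ell (x : E) : ℝ := Real.sqrt (W.aa x ^ 2 + W.rho x ^ 2)
def amp (x : E) : ℝ :=
  W.rho x * Real.sqrt (3 * W.ell x + W.aa x) / Real.sqrt ((W.ell x + W.aa x) ^ 3)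
def cs (x : E) (s : ℝ) : ℝ :=
  (1 - (W.amp x * Real.sin s) ^ 2) / (1 + (W.amp x * Real.sin s) ^ 2)
def sn (x : E) (s : ℝ) : ℝ :=
  2 * (W.amp x * Real.sin s) / (1 + (W.amp x * Real.sin s) ^ 2)
/-- The derivative of the first corrector in the fast variable. -/
def dY1 (x : E) (s : ℝ) : V4 :=
  (W.ell x * W.cs x s - W.aa x) • W.tau x + (W.ell x * W.sn x s) • W.nu x
def vel (x : E) (s : ℝ) : V4 := W.Zv x + W.dY1 x s
def Y1 (x : E) : ℝ → V4 := prim (W.dY1 x)

/-- `e` derivative in order `j`. -/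
def de (Y : ℕ → E → ℝ → V4) (j : ℕ) (x : E) (s : ℝ) : V4 :=
  if j = 0 then W.Ze x else D W.e (fun y => Y j y s) x
/-- `v` derivative in order `j`. -/
def dv (Y : ℕ → E → ℝ → V4) (j : ℕ) (x : E) (s : ℝ) : V4 :=
  (if j = 0 then W.Zv x else D W.v (fun y => Y j y s) x) + deriv (Y (j + 1) x) s

def coefEE (Y : ℕ → E → ℝ → V4) (n : ℕ) (x : E) (s : ℝ) : ℝ :=
  ∑ i ∈ range (n + 1), ip (W.de Y i x s) (W.de Y (n - i) x s)
def coefVE (Y : ℕ → E → ℝ → V4) (n : ℕ) (x : E) (s : ℝ) : ℝ :=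
  ∑ i ∈ range (n + 1), ip (W.dv Y i x s) (W.de Y (n - i) x s)
def coefVV (Y : ℕ → E → ℝ → V4) (n : ℕ) (x : E) (s : ℝ) : ℝ :=
  ∑ i ∈ range (n + 1), ip (W.dv Y i x s) (W.dv Y (n - i) x s)

/-- The data stays in the class where the recursion works. -/
structure Good : Prop where
  open_ : IsOpen W.Ω
  smoothZ : ContDiffOn ℝ ∞ W.Z W.Ω
  smoothRho : ContDiffOn ℝ ∞ W.rho W.Ω
  smoothErr : ∀ n i, Smooth2 W.Ω fun x s => W.Err n x s i
  perErr : ∀ n, ∀ x ∈ W.Ω, ∀ i, Function.Periodic (fun s => W.Err n x s i) (2 * π)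
  err1 : ∀ x ∈ W.Ω, ∀ s, W.Err 1 x s 0 = 0
  gram_pos : ∀ x ∈ W.Ω, 0 < gram2 (W.Ze x) (W.Zee x)
  aa_pos : ∀ x ∈ W.Ω, 0 < ip (W.Zv x - W.bb x) (W.Zv x - W.bb x)

variable {W}

theorem smooth_Ze (h : W.Good) : ContDiffOn ℝ ∞ W.Ze W.Ω := contDiffOn_D h.open_ h.smoothZ _
theorem smooth_Zee (h : W.Good) : ContDiffOn ℝ ∞ W.Zee W.Ω := contDiffOn_D h.open_ (smooth_Ze h) _
theorem smooth_Zv (h : W.Good) : ContDiffOn ℝ ∞ W.Zv W.Ω := contDiffOn_D h.open_ h.smoothZ _

theorem smooth_gram (h : W.Good) : ContDiffOn ℝ ∞ (fun x => gram2 (W.Ze x) (W.Zee x)) W.Ω :=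
  ((contDiffOn_ip (smooth_Ze h) (smooth_Ze h)).mul
    (contDiffOn_ip (smooth_Zee h) (smooth_Zee h))).sub
      ((contDiffOn_ip (smooth_Ze h) (smooth_Zee h)).pow 2)

theorem smooth_lift (h : W.Good) {X : Type} [NormedAddCommGroup X] [NormedSpace ℝ X] {S : Set X}
    {π₁ : X → E} (hπ : ContDiffOn ℝ ∞ π₁ S) (hS : ∀ p ∈ S, π₁ p ∈ W.Ω) {a b : X → ℝ}
    (ha : ContDiffOn ℝ ∞ a S) (hb : ContDiffOn ℝ ∞ b S) :
    ContDiffOn ℝ ∞ (fun p => W.lift (π₁ p) (a p) (b p)) S := by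
  have h1 := (smooth_Ze h).comp hπ hS
  have h2 := (smooth_Zee h).comp hπ hS
  have hg := (smooth_gram h).comp hπ hS
  have hne : ∀ p ∈ S, gram2 (W.Ze (π₁ p)) (W.Zee (π₁ p)) ≠ 0 :=
    fun p hp => (h.gram_pos _ (hS p hp)).ne'
  exact ((((ha.mul (contDiffOn_ip h2 h2)).sub (hb.mul (contDiffOn_ip h1 h2))).div hg hne).smul
    h1).add ((((hb.mul (contDiffOn_ip h1 h1)).sub (ha.mul (contDiffOn_ip h1 h2))).div hg hne).smul
      h2)

theorem smooth_bb (h : W.Good) : ContDiffOn ℝ ∞ W.bb W.Ω :=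
  smooth_lift h contDiffOn_id (fun _ hp => hp) (contDiffOn_ip (smooth_Zv h) (smooth_Ze h))
    (contDiffOn_ip (smooth_Zv h) (smooth_Zee h))

theorem aa_pos' (h : W.Good) {x : E} (hx : x ∈ W.Ω) : 0 < W.aa x :=
  Real.sqrt_pos.2 (h.aa_pos x hx)

theorem smooth_aa (h : W.Good) : ContDiffOn ℝ ∞ W.aa W.Ω :=
  (contDiffOn_ip ((smooth_Zv h).sub (smooth_bb h)) ((smooth_Zv h).sub (smooth_bb h))).sqrt
    fun x hx => (h.aa_pos x hx).ne'

theorem smooth_tau (h : W.Good) : ContDiffOn ℝ ∞ W.tau W.Ω :=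
  (contDiffOn_const.div (smooth_aa h) fun _ hx => (aa_pos' h hx).ne').smul
    ((smooth_Zv h).sub (smooth_bb h))

theorem smooth_nu (h : W.Good) : ContDiffOn ℝ ∞ W.nu W.Ω := by
  refine (contDiffOn_const.div ((smooth_gram h).sqrt fun x hx => (h.gram_pos x hx).ne')
    fun x hx => (Real.sqrt_pos.2 (h.gram_pos x hx)).ne').smul (contDiffOn_pi.2 fun i => ?_)
  have h1 := contDiffOn_pi.1 (smooth_Ze h)
  have h2 := contDiffOn_pi.1 (smooth_Zee h)
  have h3 := contDiffOn_pi.1 (smooth_tau h)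
  fin_cases i <;> simp [cross] <;> fun_prop

theorem ell_pos (h : W.Good) {x : E} (hx : x ∈ W.Ω) : 0 < W.ell x := by
  have := aa_pos' h hx
  exact Real.sqrt_pos.2 (by positivity)

theorem smooth_ell (h : W.Good) : ContDiffOn ℝ ∞ W.ell W.Ω :=
  (((smooth_aa h).pow 2).add (h.smoothRho.pow 2)).sqrt fun x hx =>
    (Real.sqrt_pos.1 (ell_pos h hx)).ne'

theorem smooth_amp (h : W.Good) : ContDiffOn ℝ ∞ W.amp W.Ω := by
  have h3 : ∀ x ∈ W.Ω, 0 < (W.ell x + W.aa x) ^ 3 := fun x hx => by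
    have := ell_pos h hx
    have := aa_pos' h hx
    positivity
  refine (h.smoothRho.mul (((contDiffOn_const.mul (smooth_ell h)).add (smooth_aa h)).sqrt
    fun x hx => ?_)).div ((((smooth_ell h).add (smooth_aa h)).pow 3).sqrt
      fun x hx => (h3 x hx).ne') fun x hx => (Real.sqrt_pos.2 (h3 x hx)).ne'
  have := ell_pos h hx
  have := aa_pos' h hx
  positivity

theorem smooth_cs (h : W.Good) : Smooth2 W.Ω W.cs := by
  have hu : ContDiffOn ℝ ∞ (fun p : E × ℝ => (W.amp p.1 * Real.sin p.2) ^ 2) (W.Ω ×ˢ univ) :=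
    (((smooth_amp h).comp contDiff_fst.contDiffOn fun _ hp => hp.1).mul
      (Real.contDiff_sin.comp contDiff_snd).contDiffOn).pow 2
  exact (contDiffOn_const.sub hu).div (contDiffOn_const.add hu) fun p _ => by positivity

theorem smooth_sn (h : W.Good) : Smooth2 W.Ω W.sn := by
  have hu : ContDiffOn ℝ ∞ (fun p : E × ℝ => W.amp p.1 * Real.sin p.2) (W.Ω ×ˢ univ) :=
    ((smooth_amp h).comp contDiff_fst.contDiffOn fun _ hp => hp.1).mul
      (Real.contDiff_sin.comp contDiff_snd).contDiffOn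
  exact (contDiffOn_const.mul hu).div (contDiffOn_const.add (hu.pow 2)) fun p _ => by positivity

theorem smooth_dY1 (h : W.Good) : Smooth2 W.Ω W.dY1 :=
  ((((Smooth2.of_fst (smooth_ell h)).mul (smooth_cs h)).sub
    (Smooth2.of_fst (smooth_aa h))).smul (Smooth2.of_fst (smooth_tau h))).add
      (((Smooth2.of_fst (smooth_ell h)).mul (smooth_sn h)).smul (Smooth2.of_fst (smooth_nu h)))

theorem per_cs (x : E) : Function.Periodic (W.cs x) (2 * π) := fun s => by
  simp [cs, Real.sin_add_two_pi]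

theorem per_sn (x : E) : Function.Periodic (W.sn x) (2 * π) := fun s => by
  simp [sn, Real.sin_add_two_pi]

theorem per_dY1 (x : E) : Function.Periodic (W.dY1 x) (2 * π) := fun s => by
  simp only [dY1, per_cs x s, per_sn x s]

theorem mean_cs (h : W.Good) {x : E} (hx : x ∈ W.Ω) : mean (W.cs x) = W.aa x / W.ell x := by
  have ha := aa_pos' h hx
  have hl := ell_pos h hx
  have he : ∀ s, W.cs x s = 2 * (1 / (1 + (W.amp x * Real.sin s) ^ 2)) - 1 := fun s => by
    rw [cs]; field_simp; ring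
  have hc : Continuous fun s => 1 / (1 + (W.amp x * Real.sin s) ^ 2) :=
    continuous_const.div (by fun_prop) fun s => by positivity
  rw [funext he, mean_sub (f := fun s => 2 * (1 / (1 + (W.amp x * Real.sin s) ^ 2)))
    (continuous_const.mul hc) continuous_const, mean_mul, mean_rat, mean_const]
  have hl2 : W.ell x ^ 2 = W.aa x ^ 2 + W.rho x ^ 2 := Real.sq_sqrt (by positivity)
  have e1 : 1 + W.amp x ^ 2 = (2 * W.ell x / (W.ell x + W.aa x)) ^ 2 := by
    rw [amp, div_pow, mul_pow, Real.sq_sqrt (by positivity), Real.sq_sqrt (by positivity)]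
    field_simp
    linear_combination (-3 * W.ell x - W.aa x) * hl2
  rw [e1, Real.sqrt_sq (by positivity)]
  field_simp
  ring

theorem mean_sn (x : E) : mean (W.sn x) = 0 := by
  have hper := per_sn (W := W) x
  have hodd : ∀ s, W.sn x (-s) = -W.sn x s := fun s => by
    simp only [sn, Real.sin_neg, mul_neg, neg_sq, neg_div]
  have e := intervalIntegral.integral_comp_neg (W.sn x) (a := 0) (b := 2 * π)
  simp only [hodd, intervalIntegral.integral_neg, neg_zero] at e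
  have e2 := hper.intervalIntegral_add_eq (-(2 * π)) 0
  rw [neg_add_cancel, zero_add] at e2
  rw [e2] at e
  rw [mean, show ∫ s in (0 : ℝ)..(2 * π), W.sn x s = 0 by linarith, smul_zero]

theorem frame (h : W.Good) {x : E} (hx : x ∈ W.Ω) :
    ip (W.Ze x) (W.tau x) = 0 ∧ ip (W.Zee x) (W.tau x) = 0 ∧ ip (W.Ze x) (W.nu x) = 0 ∧
      ip (W.Zee x) (W.nu x) = 0 ∧ ip (W.tau x) (W.tau x) = 1 ∧ ip (W.nu x) (W.nu x) = 1 ∧
      ip (W.tau x) (W.nu x) = 0 ∧ W.Zv x = W.bb x + W.aa x • W.tau x := by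
  have hg := h.gram_pos x hx
  have ha := aa_pos' h hx
  obtain ⟨b1, b2⟩ := ip_lift2 hg.ne' (ip (W.Zv x) (W.Ze x)) (ip (W.Zv x) (W.Zee x))
  have t1 : ip (W.Ze x) (W.tau x) = 0 := by
    simp only [tau, ip_smul_right, ip_sub_right, bb, lift, b1, ip_comm (W.Ze x) (W.Zv x), sub_self,
      mul_zero]
  have t2 : ip (W.Zee x) (W.tau x) = 0 := by
    simp only [tau, ip_smul_right, ip_sub_right, bb, lift, b2, ip_comm (W.Zee x) (W.Zv x), sub_self,
      mul_zero]
  have t3 : ip (W.tau x) (W.tau x) = 1 := by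
    have e : ip (W.Zv x - W.bb x) (W.Zv x - W.bb x) = W.aa x ^ 2 :=
      (Real.sq_sqrt (h.aa_pos x hx).le).symm
    rw [tau, ip_smul_left, ip_smul_right, e]
    field_simp
  obtain ⟨c1, c2, c3⟩ := ip_cross (W.Ze x) (W.Zee x) (W.tau x)
  refine ⟨t1, t2, ?_, ?_, t3, ?_, ?_, ?_⟩
  · rw [nu, ip_smul_right, c1, mul_zero]
  · rw [nu, ip_smul_right, c2, mul_zero]
  · rw [nu, ip_smul_left, ip_smul_right, ip_cross_self, t1, t2, t3]
    have := Real.sq_sqrt hg.le
    field_simp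
    linear_combination -this
  · rw [nu, ip_smul_right, c3, mul_zero]
  · rw [tau, smul_smul, mul_one_div_cancel ha.ne', one_smul, add_sub_cancel]

theorem mean_dY1 (h : W.Good) {x : E} (hx : x ∈ W.Ω) : mean (W.dY1 x) = 0 := by
  have c1 := (smooth_cs h).slice hx |>.continuous
  have c2 := (smooth_sn h).slice hx |>.continuous
  have hl := ell_pos h hx
  unfold dY1
  rw [mean_add (by fun_prop) (by fun_prop), mean_smul_const, mean_smul_const,
    mean_sub (by fun_prop) continuous_const, mean_mul, mean_mul, mean_const, mean_cs h hx,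
    mean_sn]
  simp [mul_div_cancel₀ _ hl.ne']

theorem vel_eq (h : W.Good) {x : E} (hx : x ∈ W.Ω) (s : ℝ) :
    W.vel x s = W.bb x + W.ell x • (W.cs x s • W.tau x + W.sn x s • W.nu x) := by
  rw [vel, (frame h hx).2.2.2.2.2.2.2, dY1]
  module

end Data

end Vale.Agent.P205.Wave
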