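import Vale.Agent.P205.Wave.CostUpTo

/-!
Sizes of the coefficients: order `n ≥ 1` has size `A * M ^ (400 (n + 2))`, its mean the square of
the amplitude.
-/

noncomputable section

open Set Finset Real
open scoped ContDiff

namespace Vale.Agent.P205.Wave

variable {ι E : Type} [NormedAddCommGroup E] [NormedSpace ℝ E] [FiniteDimensional ℝ E]

namespace Data

variable {W : Data E}

theorem mean_step (h : W.Good) {Y : ℕ → E → ℝ → V4} (hY : ∀ j, SP W.Ω (Y j)) (n : ℕ) {x : E}
    (hx : x ∈ W.Ω) : mean (W.step Y n x) = 0 := by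
  have c1 := (sp_u1 h hY n).cont hx
  have c2 := (sp_u2 h hY n).cont hx
  have cq := (sp_dq h hY n).1.cont hx
  have m1 : mean (W.u1 Y n x) = 0 := mean_prim ((sp_du1 h hY n).cont hx)
  have c0 := (sp_res0 h hY n).cont hx
  have m2 : mean (W.u2 Y n x) = 0 := by
    unfold u2
    rw [mean_mul, mean_sub c0 continuous_const, mean_const, sub_self, mul_zero]
  have e : W.step Y n x = fun s => ((ip (W.Zee x) (W.Zee x) / gram2 (W.Ze x) (W.Zee x)) *
        W.u1 Y n x s - (ip (W.Ze x) (W.Zee x) / gram2 (W.Ze x) (W.Zee x)) * W.u2 Y n x s) • W.Ze x +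
      ((ip (W.Ze x) (W.Ze x) / gram2 (W.Ze x) (W.Zee x)) * W.u2 Y n x s -
        (ip (W.Ze x) (W.Zee x) / gram2 (W.Ze x) (W.Zee x)) * W.u1 Y n x s) • W.Zee x +
      prim (W.dq Y n x) s := by
    funext s
    simp only [step, lift, lift2]
    congr 3 <;> ring
  rw [e, mean_add (by fun_prop) (continuous_prim cq), mean_add (by fun_prop) (by fun_prop),
    mean_smul_const, mean_smul_const, mean_sub (by fun_prop) (by fun_prop),
    mean_sub (by fun_prop) (by fun_prop), mean_mul, mean_mul, mean_mul, mean_mul, m1, m2,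
    mean_prim cq]
  simp

/-- All correctors have zero mean. -/
theorem mean_upTo (h : W.Good) : ∀ (m j : ℕ), ∀ x ∈ W.Ω, mean (W.upTo (m + 1) j x) = 0 := by
  intro m
  induction m with
  | zero =>
    intro j x hx
    rcases eq_or_ne j 1 with rfl | hj
    · rw [show W.upTo 1 1 = W.Y1 from Function.update_self _ _ _]
      exact mean_prim ((smooth_dY1 h).slice hx).continuous
    · rw [show W.upTo 1 j = fun _ _ => 0 from Function.update_of_ne hj _ _]
      exact mean_const 0
  | succ m ih =>
    intro j x hx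
    rw [show W.upTo (m + 1 + 1) = Function.update (W.upTo (m + 1)) (m + 2)
      (W.step (W.upTo (m + 1)) (m + 1)) from rfl]
    rcases eq_or_ne j (m + 2) with rfl | hj
    · rw [Function.update_self]; exact mean_step h (inv_upTo h m).sp _ hx
    · rw [Function.update_of_ne hj]; exact ih j x hx

variable {μ : Mag ι E}

namespace Bounds

variable {W : ι → Data E} (hW : Bounds μ W)
include hW

omit hW in
/-- The three coefficients of order `n` as one vector. -/
def coefs (W : ι → Data E) (N n : ℕ) (t : ι) (x : E) (s : ℝ) : Fin 3 → ℝ :=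
  coefsOf W (fun t => (W t).upTo (N + 1)) n t x s

omit hW in
/-- The tensor left by the wave in order `n`, free of the fast variable. -/
def slow (W : ι → Data E) (N n : ℕ) (t : ι) (x : E) : Fin 3 → ℝ :=
  mean (coefs W N n t x) - mean ((W t).Err n x)

/-- **Every coefficient of positive order has size `A`, its mean `A ^ 2`.** -/
theorem coefs_size (N : ℕ) {n : ℕ} (hn : 1 ≤ n) :
    Sz μ.fast 1 (400 * (n + 2)) (fun t p => coefs W N n t p.1 p.2) ∧
      Sz μ 2 (400 * (n + 2)) fun t x => mean (coefs W N n t x) := by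
  exact (hW.kin (hW.grows N)).coefs_size
    (fun t j x hx => mean_upTo (hW.good t) N j x (hW.memΩ hx)) hn

/-- The slow tensor is quadratic in the amplitude up to the mean of the prescribed term. -/
theorem slow_size (N : ℕ) {n : ℕ} (hn : 1 ≤ n) :
    Sz μ 1 (400 * (n + 2)) (fun t x => slow W N n t x) ∧
      Sz μ 2 (400 * (n + 2)) fun t x => slow W N n t x + mean ((W t).Err n x) := by
  have h := (hW.coefs_size N hn).2
  have he := ((hW.err n).mean (h := fun t x s => (W t).Err n x s)).le le_rfl
    (show n ≤ 400 * (n + 2) by omega)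
  exact ⟨((h.le (by omega) le_rfl).sub he).congr fun _ _ _ => rfl,
    h.congr fun t x _ => by simp [slow]⟩

/-- **The wave leaves only the slow tensor.** -/
theorem coefs_eq {N n : ℕ} (hn : 1 ≤ n) (hN : n ≤ N) {t : ι} {x : E} (hx : x ∈ μ.S t) (s : ℝ) :
    coefs W N n t x s = (W t).Err n x s + slow W N n t x := by
  obtain ⟨S, hS⟩ := coef_eq (hW.good t) hn hN (hW.memΩ hx)
  have e : coefs W N n t x = fun r => (W t).Err n x r + S := by
    funext r i
    obtain ⟨h0, h1, h2⟩ := hS r
    fin_cases i
    · exact h0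
    · exact h1
    · exact h2
  have hc : Continuous ((W t).Err n x) :=
    continuous_pi fun i => (((hW.good t).smoothErr n i).slice (hW.memΩ hx)).continuous
  simp only [slow, e, mean_add hc continuous_const, mean_const, add_sub_cancel_left]

/-- Order zero adds `rho ^ 2` on the phase. -/
theorem coefs_zero (N : ℕ) {t : ι} {x : E} (hx : x ∈ μ.S t) (s : ℝ) :
    coefs W N 0 t x s = ![ip ((W t).Ze x) ((W t).Ze x), ip ((W t).Zv x) ((W t).Ze x),
      ip ((W t).Zv x) ((W t).Zv x) + (W t).rho x ^ 2] := by
  obtain ⟨h0, h1, h2⟩ := coef_zero (hW.good t) N (hW.memΩ hx) s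
  simp only [coefs, coefsOf, h0, h1, h2]

end Bounds

end Data

end Vale.Agent.P205.Wave
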