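import Vale.Agent.P205.Wave.Sized
import Vale.Agent.P205.Wave.Expand

/-!
Sizes of the coefficients made by any correctors `Y j` of size `A * M ^ expo j`: this part does
not depend on the kind of the wave.
-/

noncomputable section

open Set Finset Real MeasureTheory
open scoped ContDiff

namespace Vale.Agent.P205.Wave

variable {ι E : Type} [NormedAddCommGroup E] [NormedSpace ℝ E] [FiniteDimensional ℝ E]

theorem mean_sum {G : Type} [NormedAddCommGroup G] [NormedSpace ℝ G] [CompleteSpace G] {κ : Type}
    (s : Finset κ) {f : κ → ℝ → G} (hf : ∀ k ∈ s, Continuous (f k)) :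
    mean (fun r => ∑ k ∈ s, f k r) = ∑ k ∈ s, mean (f k) := by
  simp only [mean]
  rw [intervalIntegral.integral_finsetSum fun k hk => (hf k hk).intervalIntegrable _ _,
    Finset.smul_sum]

theorem mean_deriv {G : Type} [NormedAddCommGroup G] [NormedSpace ℝ G] [CompleteSpace G]
    {f : ℝ → G} (hf : ContDiff ℝ ∞ f) (hp : Function.Periodic f (2 * π)) :
    mean (deriv f) = 0 := by
  rw [mean, intervalIntegral.integral_deriv_eq_sub (fun s _ => hf.differentiable (by simp) s)
    ((hf.continuous_deriv (by simp)).intervalIntegrable _ _), ← zero_add (2 * π), hp 0, sub_self,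
    smul_zero]

theorem mean_eq_int01 {G : Type} [NormedAddCommGroup G] [NormedSpace ℝ G] [CompleteSpace G]
    (f : ℝ → G) : mean f = ∫ u in (0 : ℝ)..1, f (2 * π * u) := by
  rw [intervalIntegral.integral_comp_mul_left f (by positivity), mean, one_div, mul_zero, mul_one]

/-- Means commute with slow derivatives. -/
theorem mean_de {G : Type} [NormedAddCommGroup G] [NormedSpace ℝ G] [CompleteSpace G] {Ω : Set E}
    (hΩ : IsOpen Ω) {f : E → ℝ → G} (hf : Smooth2 Ω f) (a : E) {x : E} (hx : x ∈ Ω) :
    mean (fun s => D a (fun y => f y s) x) = D a (fun y => mean (f y)) x := by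
  have hF : ContDiffOn ℝ 1 (fun p : E × ℝ => f p.1 (2 * π * p.2)) (Ω ×ˢ univ) :=
    (hf.comp (f := fun p : E × ℝ => (p.1, 2 * π * p.2))
      (contDiff_fst.prodMk (contDiff_const.mul contDiff_snd)).contDiffOn
      fun p hp => ⟨hp.1, trivial⟩).of_le (by simp)
  have ho : IsOpen (Ω ×ˢ (univ : Set ℝ)) := hΩ.prod isOpen_univ
  have h := hasFDerivAt_int01 hΩ hF hx
  have e : (fun y => mean (f y)) = fun y => ∫ u in (0 : ℝ)..1, f y (2 * π * u) :=
    funext fun y => mean_eq_int01 _
  simp only [D, e]
  rw [h.fderiv, mean_eq_int01, ContinuousLinearMap.intervalIntegral_apply]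
  · refine intervalIntegral.integral_congr fun u _ => ?_
    have h2 : HasFDerivAt (fun y => f y (2 * π * u)) _ x :=
      (((hF.differentiableOn one_ne_zero).differentiableAt
        (ho.mem_nhds ⟨hx, trivial⟩)).hasFDerivAt).comp (f := fun y => (y, u)) x
          (hasFDerivAt_prodMk_left x u)
    rw [h2.fderiv]
  · exact (((hF.continuousOn_fderiv_of_isOpen ho le_rfl).clm_comp
      continuousOn_const).comp_continuous (continuous_const.prodMk continuous_id)
        fun u => ⟨hx, trivial⟩).intervalIntegrable 0 1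

namespace Data

/-- The exponent of the corrector of order `j`. -/
def expo (j : ℕ) : ℕ := if j ≤ 1 then 44 else 400 * (j - 1) - 104

theorem expo_le (j : ℕ) (hj : 1 ≤ j) : expo j ≤ 400 * j := by
  unfold expo; split_ifs <;> omega

/-- Slow plus oscillation of zero mean: the shape of the factors of the coefficients. -/
structure Osc (μ : Mag ι E) (α : ℕ → ι → E → V4) (a : ℕ → ι → E → ℝ → V4) : Prop where
  base : Sz μ 0 1 (α 0)
  beyond : ∀ i, 1 ≤ i → α i = 0
  size : ∀ i, Sz μ.fast 1 (expo (i + 1) + 2) fun t p => a i t p.1 p.2 - α i t p.1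
  mean0 : ∀ i t, ∀ x ∈ μ.S t, mean (a i t x) = α i t x

variable {μ : Mag ι E}

/-- A product of two such families in total order `n ≥ 1`. -/
theorem Osc.sum_ip {α β : ℕ → ι → E → V4} {a b : ℕ → ι → E → ℝ → V4} (ha : Osc μ α a)
    (hb : Osc μ β b) {n : ℕ} (hn : 1 ≤ n) :
    Sz μ.fast 1 (400 * (n + 2))
        (fun t p => ∑ i ∈ Finset.range (n + 1), ip (a i t p.1 p.2) (b (n - i) t p.1 p.2)) ∧
      Sz μ 2 (400 * (n + 2)) fun t x =>
        mean fun s => ∑ i ∈ Finset.range (n + 1), ip (a i t x s) (b (n - i) t x s) := by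
  set da : ℕ → ι → E → ℝ → V4 := fun i t x s => a i t x s - α i t x
  set db : ℕ → ι → E → ℝ → V4 := fun i t x s => b i t x s - β i t x
  have cont : ∀ {γ : ℕ → ι → E → V4} {c : ℕ → ι → E → ℝ → V4} (_ : Osc μ γ c) (i : ℕ) t,
      ∀ x ∈ μ.S t, Continuous (c i t x) := fun {γ c} hc i t x hx => by
    have h := ((Smooth2.slice (f := fun y s => c i t y s - γ i t y) ((hc.size i).smooth t) hx).add
      contDiff_const (g := fun _ => γ i t x)).continuous
    simpa using h
  have term : ∀ i ∈ Finset.range (n + 1),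
      Sz μ.fast 1 (400 * (n + 2)) (fun t p => ip (a i t p.1 p.2) (b (n - i) t p.1 p.2)) ∧
      Sz μ 2 (400 * (n + 2)) fun t x => mean fun s => ip (a i t x s) (b (n - i) t x s) := by
    intro i hi
    have := Finset.mem_range.1 hi
    have hexp : expo (i + 1) + 2 + (expo (n - i + 1) + 2) ≤ 400 * (n + 2) := by
      unfold expo; split_ifs <;> omega
    have h2 := (ha.size i).ip (hb.size (n - i))
    have m2 : Sz μ 2 (400 * (n + 2)) fun t x => mean fun s => ip (da i t x s) (db (n - i) t x s) :=
      ((Sz.mean (h := fun t x s => ip (da i t x s) (db (n - i) t x s)) h2).le le_rfl hexp)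
    rcases Nat.eq_zero_or_pos i with rfl | h0
    · have hβ : β (n - 0) = 0 := hb.beyond _ (by omega)
      have h1 := (ha.base.fast.ip (hb.size (n - 0))).le (d' := 1) (m' := 400 * (n + 2)) (by omega)
        (by unfold expo; split_ifs <;> omega)
      refine ⟨(h1.add (h2.le (by omega) hexp)).congr fun t p _ => ?_, m2.congr fun t x hx => ?_⟩
      · simp [hβ, show β n = 0 from hb.beyond n (by omega)]
      · have hc := cont hb (n - 0) t x hx
        have hm := hb.mean0 (n - 0) t x hx
        have hca := cont ha 0 t x hx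
        simp only [da, db, hβ, Pi.zero_apply, sub_zero, ip_sub_left] at hm ⊢
        rw [mean_sub (by unfold ip; fun_prop) (by unfold ip; fun_prop), mean_ip hc, hm,
          ip_zero_right, sub_zero]
    rcases eq_or_ne i n with rfl | hne
    · have hα : α i = 0 := ha.beyond i h0
      have h1 := ((ha.size i).ip hb.base.fast).le (d' := 1) (m' := 400 * (i + 2)) (by omega)
        (by unfold expo; split_ifs <;> omega)
      refine ⟨(h1.add (h2.le (by omega) hexp)).congr fun t p _ => ?_, m2.congr fun t x hx => ?_⟩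
      · simp [hα]
      · have hc := cont hb (i - i) t x hx
        have hm := ha.mean0 i t x hx
        have hca := cont ha i t x hx
        simp only [da, db, hα, Nat.sub_self, Pi.zero_apply, sub_zero, ip_sub_right] at hm hc ⊢
        rw [mean_sub (by unfold ip; fun_prop) (by unfold ip; fun_prop)]
        simp only [ip_comm (a i t x _) (β 0 t x)]
        rw [mean_ip hca, hm, ip_zero_right, sub_zero]
    · have hα : α i = 0 := ha.beyond i h0
      have hβ : β (n - i) = 0 := hb.beyond _ (by omega)
      exact ⟨(h2.le (by omega) hexp).congr fun t p _ => by simp [hα, hβ],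
        m2.congr fun t x _ => by simp [da, db, hα, hβ]⟩
  refine ⟨Sz.sum (f := fun i t (p : E × ℝ) => ip (a i t p.1 p.2) (b (n - i) t p.1 p.2)) _
      fun i hi => (term i hi).1,
    (Sz.sum (f := fun i t x => mean fun s => ip (a i t x s) (b (n - i) t x s)) _
      fun i hi => (term i hi).2).congr fun t x hx => ?_⟩
  refine mean_sum _ fun i _ => ?_
  have := cont ha i t x hx
  have := cont hb (n - i) t x hx
  unfold ip; fun_prop

/-- Correctors `Y j` of size `A * M ^ expo j`, zero beyond `n`. -/
structure Kin (μ : Mag ι E) (W : ι → Data E) (Y : ι → ℕ → E → ℝ → V4) (n : ℕ) : Prop where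
  one : 1 ≤ n
  norm_v : ∀ t, ‖(W t).v‖ ≤ μ.M t
  norm_e : ∀ t, ‖(W t).e‖ ≤ μ.M t
  ze : Sz μ 0 1 fun t => (W t).Ze
  zv : Sz μ 0 1 fun t => (W t).Zv
  beyond : ∀ t j, n < j → ∀ x s, Y t j x s = 0
  size : ∀ j, Sz μ.fast 1 (expo j) fun t p => Y t j p.1 p.2
  dv0 : Sz μ.fast 1 44 fun t p => (W t).dv (Y t) 0 p.1 p.2 - (W t).Zv p.1
  per : ∀ t j, ∀ x ∈ μ.S t, Function.Periodic (Y t j x) (2 * π)

/-- The three coefficients of order `n` as one vector. -/
def coefsOf (W : ι → Data E) (Y : ι → ℕ → E → ℝ → V4) (n : ℕ) (t : ι) (x : E) (s : ℝ) :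
    Fin 3 → ℝ :=
  ![(W t).coefEE (Y t) n x s, (W t).coefVE (Y t) n x s, (W t).coefVV (Y t) n x s]

namespace Kin

variable {μ : Mag ι E} {W : ι → Data E} {Y : ι → ℕ → E → ℝ → V4} {n : ℕ}
  (hK : Kin μ W Y n)
include hK

theorem smooth (t : ι) (j : ℕ) : Smooth2 (μ.S t) (Y t j) := (hK.size j).smooth t

omit hK in
theorem de_zero : ∀ t, ∀ (p : E × ℝ), (W t).de (Y t) 0 p.1 p.2 = (W t).Ze p.1 :=
  fun t p => by simp [Data.de]

theorem de_size {i : ℕ} (hi : 1 ≤ i) :
    Sz μ.fast 1 (expo i + 2) fun t p => (W t).de (Y t) i p.1 p.2 :=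
  ((hK.size i).de (h := fun t => Y t i) (fun t => (W t).e) hK.norm_e).congr fun t p _ => by
    simp [Data.de, (show i ≠ 0 by omega)]

theorem dv_size {i : ℕ} (hi : 1 ≤ i) :
    Sz μ.fast 1 (expo (i + 1) + 2) fun t p => (W t).dv (Y t) i p.1 p.2 := by
  have hm : expo i + 2 ≤ expo (i + 1) + 2 := by unfold expo; split_ifs <;> omega
  exact ((((hK.size i).de (h := fun t => Y t i) (fun t => (W t).v) hK.norm_v).le le_rfl hm).add
    ((hK.size (i + 1)).ds (h := fun t => Y t (i + 1)))).congr fun t p _ => by
      simp [Data.dv, (show i ≠ 0 by omega)]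

theorem dv_last :
    Sz μ.fast 1 (expo n + 2) fun t p => (W t).dv (Y t) n p.1 p.2 :=
  ((hK.size n).de (h := fun t => Y t n) (fun t => (W t).v) hK.norm_v).congr fun t p _ => by
    have e : Y t (n + 1) p.1 = fun _ => 0 :=
      funext fun s => hK.beyond t (n + 1) (by omega) p.1 s
    simp [Data.dv, (show n ≠ 0 from (Nat.one_le_iff_ne_zero.1 hK.one)), e]

theorem dv_zero : Sz μ.fast 0 44 fun t p => (W t).dv (Y t) 0 p.1 p.2 :=
  ((hK.zv.fast.le le_rfl (show (1 : ℕ) ≤ 44 by omega)).add (hK.dv0.le zero_le_one le_rfl)).congr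
    fun t p _ => by simp

/-- The known exponent in step `n`. -/
theorem coefVE_step :
    Sz μ.fast 1 (400 * n - 204) fun t p => (W t).coefVE (Y t) n p.1 p.2 := by
  have hn := hK.one
  refine Sz.sum (f := fun i t (p : E × ℝ) =>
    ip ((W t).dv (Y t) i p.1 p.2) ((W t).de (Y t) (n - i) p.1 p.2)) _ fun i hi => ?_
  have := Finset.mem_range.1 hi
  rcases Nat.eq_zero_or_pos i with rfl | h0
  · exact ((hK.dv_zero).ip (hK.de_size (i := n - 0) (by omega))).le (by omega)
      (by unfold expo; split_ifs <;> omega)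
  rcases eq_or_ne i n with rfl | hne
  · exact (((hK.dv_last).ip hK.ze.fast).congr fun t p _ => by
      rw [Nat.sub_self, de_zero]).le (by omega) (by unfold expo; split_ifs <;> omega)
  · exact ((hK.dv_size h0).ip (hK.de_size (i := n - i) (by omega))).le (by omega)
      (by unfold expo; split_ifs <;> omega)

theorem coefVV_step :
    Sz μ.fast 1 (400 * n - 204) fun t p => (W t).coefVV (Y t) n p.1 p.2 := by
  have hn := hK.one
  refine Sz.sum (f := fun i t (p : E × ℝ) =>
    ip ((W t).dv (Y t) i p.1 p.2) ((W t).dv (Y t) (n - i) p.1 p.2)) _ fun i hi => ?_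
  have := Finset.mem_range.1 hi
  rcases Nat.eq_zero_or_pos i with rfl | h0
  · exact ((hK.dv_zero).ip (hK.dv_last)).le (by omega)
      (by unfold expo; split_ifs <;> omega)
  rcases eq_or_ne i n with rfl | hne
  · exact (((hK.dv_last).ip (hK.dv_zero)).congr fun t p _ => by
      rw [Nat.sub_self]).le (by omega) (by unfold expo; split_ifs <;> omega)
  · exact ((hK.dv_size h0).ip (hK.dv_size (i := n - i) (by omega))).le (by omega)
      (by unfold expo; split_ifs <;> omega)

theorem coefEE_step :
    Sz μ.fast 1 (400 * n - 204) fun t p => (W t).coefEE (Y t) (n + 1) p.1 p.2 := by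
  have hn := hK.one
  refine Sz.sum (f := fun i t (p : E × ℝ) =>
    ip ((W t).de (Y t) i p.1 p.2) ((W t).de (Y t) (n + 1 - i) p.1 p.2)) _ fun i hi => ?_
  have := Finset.mem_range.1 hi
  have z : ∀ t (p : E × ℝ), (W t).de (Y t) (n + 1) p.1 p.2 = 0 := fun t p => by
    have e : (fun y => Y t (n + 1) y p.2) = fun _ => 0 :=
      funext fun y => hK.beyond t (n + 1) (by omega) y p.2
    simp [Data.de, e, D]
  rcases Nat.eq_zero_or_pos i with rfl | h0
  · exact Sz.zero.congr fun t p _ => by rw [Nat.sub_zero, z, ip_zero_right]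
  rcases eq_or_ne i (n + 1) with rfl | hne
  · exact Sz.zero.congr fun t p _ => by rw [z, ip_zero_left]
  · exact ((hK.de_size h0).ip (hK.de_size (i := n + 1 - i) (by omega))).le (by omega)
      (by unfold expo; split_ifs <;> omega)

/-- The `e` derivatives of the correctors. -/
theorem osc_de (hm : ∀ t j, ∀ x ∈ μ.S t, mean (Y t j x) = 0) : Osc μ (fun i t => if i = 0 then (W t).Ze else 0)
    fun i t => (W t).de (Y t) i := by
  refine ⟨hK.ze.congr fun _ _ _ => by simp, fun i hi => funext fun t => by
      simp [show i ≠ 0 by omega], fun i => ?_, fun i t x hx => ?_⟩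
  · rcases Nat.eq_zero_or_pos i with rfl | h0
    · exact Sz.zero.congr fun t p _ => by simp [Data.de]
    · exact ((hK.de_size h0).le le_rfl (by unfold expo; split_ifs <;> omega)).congr
        fun t p _ => by simp [show i ≠ 0 by omega]
  · rcases Nat.eq_zero_or_pos i with rfl | h0
    · exact mean_const _
    · have hne : i ≠ 0 := by omega
      simp only [hne, if_false, Pi.zero_apply]
      rw [show (W t).de (Y t) i x =
        fun s => D (W t).e (fun y => Y t i y s) x from funext fun s => if_neg hne,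
        mean_de (μ.isOpen t) (hK.smooth t i) _ hx]
      have e : (fun y => mean (Y t i y)) =ᶠ[nhds x] fun _ => (0 : V4) := by
        filter_upwards [(μ.isOpen t).mem_nhds hx] with y hy using
          hm t i y hy
      simp [D, e.fderiv_eq]

/-- The `v` derivatives of the correctors. -/
theorem osc_dv (hm : ∀ t j, ∀ x ∈ μ.S t, mean (Y t j x) = 0) : Osc μ (fun i t => if i = 0 then (W t).Zv else 0)
    fun i t => (W t).dv (Y t) i := by
  refine ⟨hK.zv.congr fun _ _ _ => by simp, fun i hi => funext fun t => by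
      simp [show i ≠ 0 by omega], fun i => ?_, fun i t x hx => ?_⟩
  · rcases Nat.eq_zero_or_pos i with rfl | h0
    · exact (hK.dv0.le le_rfl (by unfold expo; split_ifs <;> omega)).congr fun t p _ => by simp
    · exact (hK.dv_size h0).congr fun t p _ => by simp [show i ≠ 0 by omega]
  · have hΩ := hx
    have hd := (hK.smooth t (i + 1)).slice hΩ
    have hmd := mean_deriv hd (hK.per t (i + 1) x hΩ)
    have hcd : Continuous (deriv (Y t (i + 1) x)) := hd.continuous_deriv (by simp)
    have e0 : ∀ c : ℝ → V4, Continuous c →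
        mean (fun s => c s + deriv (Y t (i + 1) x) s) = mean c := fun c hc => by
      rw [mean_add hc hcd, hmd, add_zero]
    rcases Nat.eq_zero_or_pos i with rfl | h0
    · exact (e0 _ continuous_const).trans (mean_const _)
    · have hne : i ≠ 0 := by omega
      simp only [hne, if_false, Pi.zero_apply]
      rw [show (W t).dv (Y t) i x =
        fun s => D (W t).v (fun y => Y t i y s) x +
          deriv (Y t (i + 1) x) s from funext fun s => by simp [Data.dv, hne],
        e0 _ (((hK.smooth t i).de (μ.isOpen t) (W t).v).slice hΩ).continuous,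
        mean_de (μ.isOpen t) (hK.smooth t i) _ hΩ]
      have e : (fun y => mean (Y t i y)) =ᶠ[nhds x] fun _ => (0 : V4) := by
        filter_upwards [(μ.isOpen t).mem_nhds hΩ] with y hy using
          hm t i y hy
      simp [D, e.fderiv_eq]

/-- **Every coefficient of positive order has size `A`, its mean `A ^ 2`.** -/
theorem coefs_size (hm : ∀ t j, ∀ x ∈ μ.S t, mean (Y t j x) = 0) {m : ℕ} (hmn : 1 ≤ m) :
    Sz μ.fast 1 (400 * (m + 2)) (fun t p => coefsOf W Y m t p.1 p.2) ∧
      Sz μ 2 (400 * (m + 2)) fun t x => mean (coefsOf W Y m t x) := by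
  have hee := (hK.osc_de hm).sum_ip (hK.osc_de hm) hmn
  have hve := (hK.osc_dv hm).sum_ip (hK.osc_de hm) hmn
  have hvv := (hK.osc_dv hm).sum_ip (hK.osc_dv hm) hmn
  have hs : Sz μ.fast 1 (400 * (m + 2)) fun t p => coefsOf W Y m t p.1 p.2 := by
    refine Sz.pi fun i => ?_
    fin_cases i
    · exact hee.1.congr fun _ _ _ => rfl
    · exact hve.1.congr fun _ _ _ => rfl
    · exact hvv.1.congr fun _ _ _ => rfl
  refine ⟨hs, Sz.pi fun i => ?_⟩
  have e : ∀ t, ∀ x ∈ μ.S t, mean (coefsOf W Y m t x) i = mean fun s => coefsOf W Y m t x s i :=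
    fun t x hx => by
      have hc : Continuous (coefsOf W Y m t x) :=
        (Smooth2.slice (f := coefsOf W Y m t) (hs.smooth t) hx).continuous
      have h1 := (ContinuousLinearMap.proj (R := ℝ) (φ := fun _ : Fin 3 => ℝ) i).intervalIntegral_comp_comm
        (hc.intervalIntegrable (μ := volume) 0 (2 * π))
      simp only [ContinuousLinearMap.proj_apply] at h1
      simp only [mean, Pi.smul_apply, h1]
  fin_cases i
  · exact hee.2.congr fun t x hx => (e t x hx).trans rfl
  · exact hve.2.congr fun t x hx => (e t x hx).trans rfl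
  · exact hvv.2.congr fun t x hx => (e t x hx).trans rfl

end Kin

end Data

end Vale.Agent.P205.Wave
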