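import Vale.Agent.P205.Wave.CostFrame
import Vale.Agent.P205.Wave.CostKin

/-!
Sizes of the correctors: the corrector of order `j` has size `A * M ^ (400 j)`.
-/

noncomputable section

open Set Finset Real
open scoped ContDiff

namespace Vale.Agent.P205.Wave

variable {ι E : Type} [NormedAddCommGroup E] [NormedSpace ℝ E] [FiniteDimensional ℝ E]

namespace Data

/-- Size at most `A * M ^ expo j` in order `j`, zero beyond `n`. -/
structure Grows (μ : Mag ι E) (W : ι → Data E) (Y : ι → ℕ → E → ℝ → V4) (n : ℕ) : Prop where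
  one : 1 ≤ n
  inv : ∀ t, Inv (W t) (Y t) n
  size : ∀ j, Sz μ.fast 1 (expo j) fun t p => Y t j p.1 p.2

namespace Bounds

variable {μ : Mag ι E} {W : ι → Data E} (hW : Bounds μ W) {Y : ι → ℕ → E → ℝ → V4} {n : ℕ}
include hW

theorem kin (hY : Grows μ W Y n) : Kin μ W Y n where
  one := hY.one
  norm_v := hW.norm_v
  norm_e := hW.norm_e
  ze := hW.ze
  zv := hW.zv
  beyond t := (hY.inv t).beyond
  size := hY.size
  dv0 := hW.dY1.congr fun t p hp => by
    rw [(hY.inv t).dv0 p.1 (hW.memΩ hp.1) p.2, Data.vel, add_sub_cancel_left]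
  per t j x hx := ((hY.inv t).sp j).per x (hW.memΩ hx)

theorem lift_fast {d m : ℕ} {a b : ι → E × ℝ → ℝ} (ha : Sz μ.fast d m a)
    (hb : Sz μ.fast d m b) :
    Sz μ.fast d (m + 8) fun t p => (W t).lift p.1 (a t p) (b t p) := by
  have g := hW.invGram.fast
  have pp := (hW.ze.ip hW.ze).fast
  have qq := (hW.zee.ip hW.zee).fast
  have pq := (hW.ze.ip hW.zee).fast
  refine ((((((ha.mul qq).le le_rfl le_rfl).sub ((hb.mul pq).le le_rfl (by omega))).mul g).smul
    hW.ze.fast).le (by omega) (by omega) |>.add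
    ((((((hb.mul pp).le le_rfl (m' := m + (1 + 3)) (by omega)).sub (ha.mul pq)).mul g).smul
      hW.zee.fast).le (by omega) (by omega))).congr fun t p _ => ?_
  simp only [lift, lift2, div_eq_mul_inv]

/-- The corrector made in step `n`. -/
theorem step_size (hY : Grows μ W Y n) :
    Sz μ.fast 1 (expo (n + 1)) fun t p => (W t).step (Y t) n p.1 p.2 := by
  have hn := hY.one
  set K := 400 * n - 204 with hK
  have hsp : ∀ t j, SP (W t).Ω (Y t j) := fun t => (hY.inv t).sp
  have hg := fun t => hW.good t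
  have err := fun i m => (hW.err m).proj i
  have res1 : Sz μ.fast 1 K fun t p => (W t).res1 (Y t) n p.1 p.2 :=
    (((err 1 n).le le_rfl (by omega)).sub ((hW.kin hY).coefVE_step)).congr fun _ _ _ => rfl
  have du1 : Sz μ.fast 1 K fun t p => (W t).du1 (Y t) n p.1 p.2 :=
    (res1.sub (res1.mean (h := fun t => (W t).res1 (Y t) n)).fast).congr fun _ _ _ => rfl
  have u1 : Sz μ.fast 1 K fun t p => (W t).u1 (Y t) n p.1 p.2 :=
    du1.prim (h := fun t => (W t).du1 (Y t) n)
      (fun t x hx => (sp_du1 (hg t) (hsp t) n).per x (hW.memΩ hx)) fun t x hx =>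
        (sp_centre (hg t).open_ (sp_res1 (hg t) (hsp t) n)).2 x (hW.memΩ hx)
  have two : Sz μ.fast 0 0 fun _ _ => (2 : ℝ) := Sz.const 2
  have half : Sz μ.fast 0 0 fun _ _ => (1 / 2 : ℝ) := Sz.const _
  have res0 : Sz μ.fast 1 (K + 2) fun t p => (W t).res0 (Y t) n p.1 p.2 := by
    have a := ((hW.kin hY).coefEE_step).le le_rfl (show K ≤ K + 2 by omega)
    have b := (two.mul (u1.de (h := fun t => (W t).u1 (Y t) n) (fun t => (W t).e) hW.norm_e)).le
      (d' := 1) (m' := K + 2) (by omega) (by omega)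
    exact ((a.add b).sub ((err 0 (n + 1)).le le_rfl (by omega))).congr fun _ _ _ => rfl
  have u2 : Sz μ.fast 1 (K + 2) fun t p => (W t).u2 (Y t) n p.1 p.2 :=
    ((half.mul (res0.sub (res0.mean (h := fun t => (W t).res0 (Y t) n)).fast)).le (by omega)
      (by omega)).congr fun _ _ _ => rfl
  have du2 : Sz μ.fast 1 (K + 4) fun t p => deriv ((W t).u2 (Y t) n p.1) p.2 :=
    u2.ds (h := fun t => (W t).u2 (Y t) n)
  have gvv : Sz μ.fast 1 (K + 24) fun t p => (W t).gvv (Y t) n p.1 p.2 := by
    have a := half.mul (((err 2 n).le le_rfl (show n ≤ K by omega)).sub ((hW.kin hY).coefVV_step))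
    have b := hW.bb.fast.ip (hW.lift_fast (du1.le le_rfl (show K ≤ K + 4 by omega)) du2)
    refine ((a.le (by omega) (by omega)).sub (b.le (by omega) (by omega))).congr fun t p _ => ?_
    simp only [Data.gvv]
    ring
  have cs := hW.profile.2.2.1
  have sn := hW.profile.2.1
  have mvv : Sz μ 1 (K + 50) fun t x => (W t).mvv (Y t) n x :=
    (((Sz.mean (h := fun t x s => (W t).gvv (Y t) n x s * (W t).cs x s) (gvv.mul cs)).mul
      hW.invMeanCs).le (by omega) (by omega)).congr fun t x _ => div_eq_mul_inv _ _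
  have wvv : Sz μ.fast 1 (K + 51) fun t p => (W t).wvv (Y t) n p.1 p.2 :=
    ((((gvv.le le_rfl (show K + 24 ≤ K + 50 by omega)).sub mvv.fast).mul hW.invEll.fast).le
      (by omega) (by omega)).congr fun t p _ => div_eq_mul_inv _ _
  have cvv : Sz μ 1 (K + 77) fun t x => (W t).cvv (Y t) n x :=
    (((Sz.mean (h := fun t x s => (W t).wvv (Y t) n x s * (W t).sn x s) (wvv.mul sn)).neg.mul
      hW.invMeanCs).le (by omega) (by omega)).congr fun t x _ => div_eq_mul_inv _ _
  have dq : Sz μ.fast 1 (K + 95) fun t p => (W t).dq (Y t) n p.1 p.2 := by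
    have w := wvv.le le_rfl (show K + 51 ≤ K + 77 by omega)
    have a := ((w.mul cs).sub (cvv.fast.mul sn)).smul hW.tau.fast
    have b := ((w.mul sn).add (cvv.fast.mul cs)).smul hW.nu.fast
    exact ((a.le (by omega) (by omega)).add (b.le (by omega) (by omega))).congr fun _ _ _ => rfl
  have q := dq.prim (h := fun t => (W t).dq (Y t) n)
    (fun t x hx => (sp_dq (hg t) (hsp t) n).1.per x (hW.memΩ hx))
    fun t x hx => (sp_dq (hg t) (hsp t) n).2 x (hW.memΩ hx)
  have l := (hW.lift_fast (u1.le le_rfl (show K ≤ K + 2 by omega)) u2).le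
    (le_refl 1) (show K + 2 + 8 ≤ K + 95 by omega)
  exact ((l.add q).le le_rfl (by unfold expo; split_ifs <;> omega)).congr fun _ _ _ => rfl

omit Y n in
/-- **The correctors have size `A * M ^ expo`.** -/
theorem grows (m : ℕ) : Grows μ W (fun t => (W t).upTo (m + 1)) (m + 1) := by
  induction m with
  | zero =>
    refine ⟨le_rfl, fun t => inv_upTo (hW.good t) 0, fun j => ?_⟩
    rcases eq_or_ne j 1 with rfl | hj
    · exact hW.Y1.congr fun t p _ => congrFun (congrFun
        (show (W t).upTo 1 1 = (W t).Y1 from Function.update_self _ _ _) p.1) p.2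
    · exact Sz.zero.congr fun t p _ => congrFun (congrFun
        (show (W t).upTo 1 j = fun _ _ => 0 from Function.update_of_ne hj _ _) p.1) p.2
  | succ m ih =>
    refine ⟨by omega, fun t => inv_upTo (hW.good t) (m + 1), fun j => ?_⟩
    have e : ∀ t, (W t).upTo (m + 1 + 1) = Function.update ((W t).upTo (m + 1)) (m + 2)
      ((W t).step ((W t).upTo (m + 1)) (m + 1)) := fun t => rfl
    rcases eq_or_ne j (m + 2) with rfl | hj
    · exact (hW.step_size ih).congr fun t p _ => by rw [e, Function.update_self]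
    · exact (ih.size j).congr fun t p _ => by rw [e, Function.update_of_ne hj]

end Bounds

end Data

end Vale.Agent.P205.Wave
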