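import Vale.Agent.P205.Wave.Frame

/-!
The cost calculus: `f` has size `w` and every derivative costs a factor `B`.
-/

noncomputable section

open Set Finset
open scoped ContDiff

namespace Vale.Agent.P205.Wave

variable {ι : Type} {X : Type} [NormedAddCommGroup X] [NormedSpace ℝ X]
variable {F : Type} [NormedAddCommGroup F] [NormedSpace ℝ F]
variable {G : Type} [NormedAddCommGroup G] [NormedSpace ℝ G]
variable {H : Type} [NormedAddCommGroup H] [NormedSpace ℝ H]

/-- A family of charts with the cost `B ≥ 1` of one derivative. -/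
structure Scale (ι X : Type) [TopologicalSpace X] where
  /-- The domains. -/
  S : ι → Set X
  /-- The cost of a derivative. -/
  B : ι → ℝ
  isOpen : ∀ t, IsOpen (S t)
  one_le : ∀ t, 1 ≤ B t

/-- `f` has size at most a constant times `w`, each derivative costing `B`. -/
structure Cost (σ : Scale ι X) (w : ι → X → ℝ) (f : ι → X → F) : Prop where
  smooth : ∀ t, ContDiffOn ℝ ∞ (f t) (σ.S t)
  nonneg : ∀ t, ∀ x ∈ σ.S t, 0 ≤ w t x
  bound : ∀ i : ℕ, ∃ C, 0 ≤ C ∧ ∀ t, ∀ x ∈ σ.S t,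
    ‖iteratedFDeriv ℝ i (f t) x‖ ≤ C * w t x * σ.B t ^ i

variable {σ : Scale ι X} {w w' : ι → X → ℝ} {f : ι → X → F}

namespace Cost

theorem contDiffAt (hf : Cost σ w f) {t : ι} {x : X} (hx : x ∈ σ.S t) (n : ℕ) :
    ContDiffAt ℝ n (f t) x :=
  ((hf.smooth t).contDiffAt ((σ.isOpen t).mem_nhds hx)).of_le (by exact WithTop.coe_le_coe.2 le_top)

theorem congr {g : ι → X → F} (hf : Cost σ w f) (h : ∀ t, ∀ x ∈ σ.S t, g t x = f t x) :
    Cost σ w g := by
  refine ⟨fun t => (hf.smooth t).congr (h t), hf.nonneg, fun i => ?_⟩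
  obtain ⟨C, hC0, hC⟩ := hf.bound i
  refine ⟨C, hC0, fun t x hx => ?_⟩
  have e : g t =ᶠ[nhds x] f t := by
    filter_upwards [(σ.isOpen t).mem_nhds hx] with y hy using h t y hy
  rw [(e.iteratedFDeriv ℝ i).eq_of_nhds]
  exact hC t x hx

theorem mono (hf : Cost σ w f) {c : ℝ} (hc : 0 ≤ c) (hw : ∀ t, ∀ x ∈ σ.S t, 0 ≤ w' t x)
    (h : ∀ t, ∀ x ∈ σ.S t, w t x ≤ c * w' t x) : Cost σ w' f := by
  refine ⟨hf.smooth, hw, fun i => ?_⟩
  obtain ⟨C, hC0, hC⟩ := hf.bound i
  refine ⟨C * c, mul_nonneg hC0 hc, fun t x hx => (hC t x hx).trans ?_⟩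
  rw [mul_assoc C c]
  exact mul_le_mul_of_nonneg_right (mul_le_mul_of_nonneg_left (h t x hx) hC0)
    (pow_nonneg (zero_le_one.trans (σ.one_le t)) i)

theorem const (c : F) : Cost σ (fun _ _ => 1) fun _ _ => c := by
  refine ⟨fun _ => contDiffOn_const, fun _ _ _ => zero_le_one,
    fun i => ⟨‖c‖, norm_nonneg _, fun t x _ => ?_⟩⟩
  cases i with
  | zero => simp [norm_iteratedFDeriv_zero]
  | succ i =>
    rw [iteratedFDeriv_succ_const]
    simp [mul_nonneg, pow_nonneg (zero_le_one.trans (σ.one_le t))]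

theorem add {g : ι → X → F} (hf : Cost σ w f) (hg : Cost σ w g) :
    Cost σ w fun t x => f t x + g t x := by
  refine ⟨fun t => (hf.smooth t).add (hg.smooth t), hf.nonneg, fun i => ?_⟩
  obtain ⟨C, hC0, hC⟩ := hf.bound i
  obtain ⟨C', hC0', hC'⟩ := hg.bound i
  refine ⟨C + C', add_nonneg hC0 hC0', fun t x hx => ?_⟩
  rw [fun_iteratedFDeriv_add_apply (hf.contDiffAt hx i) (hg.contDiffAt hx i), add_mul, add_mul]
  exact (norm_add_le _ _).trans (add_le_add (hC t x hx) (hC' t x hx))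

theorem clm (hf : Cost σ w f) (L : F →L[ℝ] G) : Cost σ w fun t x => L (f t x) := by
  refine ⟨fun t => L.contDiff.comp_contDiffOn (hf.smooth t), hf.nonneg, fun i => ?_⟩
  obtain ⟨C, hC0, hC⟩ := hf.bound i
  refine ⟨‖L‖ * C, mul_nonneg (norm_nonneg _) hC0, fun t x hx => ?_⟩
  refine (L.norm_iteratedFDeriv_comp_left (hf.contDiffAt hx i) le_rfl).trans ?_
  rw [mul_assoc ‖L‖ C, mul_assoc ‖L‖]
  exact mul_le_mul_of_nonneg_left (hC t x hx) (norm_nonneg _)

theorem bilin {g : ι → X → G} (hf : Cost σ w f) (hg : Cost σ w' g) (L : F →L[ℝ] G →L[ℝ] H) :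
    Cost σ (fun t x => w t x * w' t x) fun t x => L (f t x) (g t x) := by
  refine ⟨fun t => L.isBoundedBilinearMap.contDiff.comp_contDiffOn
    ((hf.smooth t).prodMk (hg.smooth t)), fun t x hx => mul_nonneg (hf.nonneg t x hx)
      (hg.nonneg t x hx), fun i => ?_⟩
  choose C hC0 hC using hf.bound
  choose C' hC0' hC' using hg.bound
  refine ⟨‖L‖ * ∑ j ∈ Finset.range (i + 1), i.choose j * C j * C' (i - j),
    mul_nonneg L.opNorm_nonneg (sum_nonneg fun j _ =>
      mul_nonneg (mul_nonneg (by positivity) (hC0 j)) (hC0' _)), fun t x hx => ?_⟩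
  have hu := (σ.isOpen t).uniqueDiffOn (𝕜 := ℝ)
  have e : ∀ {Y : Type} [NormedAddCommGroup Y] [NormedSpace ℝ Y] (j : ℕ) (u : X → Y),
      iteratedFDerivWithin ℝ j u (σ.S t) x = iteratedFDeriv ℝ j u x :=
    fun j u => iteratedFDerivWithin_of_isOpen j (σ.isOpen t) hx
  have key := L.norm_iteratedFDerivWithin_le_of_bilinear (hf.smooth t) (hg.smooth t) hu hx
    (n := i) (by exact WithTop.coe_le_coe.2 le_top)
  simp only [e] at key
  refine key.trans (le_trans (mul_le_mul_of_nonneg_left (sum_le_sum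
    (g := fun j => (i.choose j : ℝ) * (C j * w t x * σ.B t ^ j) *
      (C' (i - j) * w' t x * σ.B t ^ (i - j))) fun j hj => ?_) L.opNorm_nonneg) (le_of_eq ?_))
  · exact mul_le_mul (mul_le_mul_of_nonneg_left (hC j t x hx) (by positivity)) (hC' _ t x hx)
      (norm_nonneg _) (mul_nonneg (by positivity) ((norm_nonneg _).trans (hC j t x hx)))
  · simp only [mul_sum, sum_mul]
    refine sum_congr rfl fun j hj => ?_
    have : σ.B t ^ j * σ.B t ^ (i - j) = σ.B t ^ i := by
      rw [← pow_add, Nat.add_sub_cancel' (Nat.lt_succ_iff.1 (Finset.mem_range.1 hj))]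
    rw [← this]
    ring

/-- One derivative costs `B`. -/
theorem deriv_dir (hf : Cost σ w f) (a : X) :
    Cost σ (fun t x => w t x * σ.B t) fun t => D a (f t) := by
  refine ⟨fun t => contDiffOn_D (σ.isOpen t) (hf.smooth t) a, fun t x hx =>
    mul_nonneg (hf.nonneg t x hx) (zero_le_one.trans (σ.one_le t)), fun i => ?_⟩
  obtain ⟨C, hC0, hC⟩ := hf.bound (i + 1)
  refine ⟨‖a‖ * C, mul_nonneg (norm_nonneg _) hC0, fun t x hx => ?_⟩
  have hd : ContDiffAt ℝ i (fderiv ℝ (f t)) x :=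
    (hf.contDiffAt hx (i + 1)).fderiv_right (by norm_cast)
  have h := (ContinuousLinearMap.apply ℝ F a).norm_iteratedFDeriv_comp_left hd le_rfl
  refine h.trans ?_
  rw [norm_iteratedFDeriv_fderiv]
  refine (mul_le_mul (?_ : ‖ContinuousLinearMap.apply ℝ F a‖ ≤ ‖a‖) (hC t x hx) (norm_nonneg _)
    (norm_nonneg _)).trans (le_of_eq (by rw [pow_succ]; ring))
  exact ContinuousLinearMap.opNorm_le_bound _ (norm_nonneg _) fun L => by
    rw [ContinuousLinearMap.apply_apply, mul_comm]; exact L.le_opNorm a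

/-- Composition with a fixed smooth map on a compact set of values. -/
theorem comp_smooth (hf : Cost σ (fun _ _ => 1) f) {g : F → G} {U K : Set F} (hU : IsOpen U)
    (hK : IsCompact K) (hKU : K ⊆ U) (hg : ContDiffOn ℝ ∞ g U)
    (hv : ∀ t, ∀ x ∈ σ.S t, f t x ∈ K) : Cost σ (fun _ _ => 1) fun t x => g (f t x) := by
  refine ⟨fun t => hg.comp (hf.smooth t) fun x hx => hKU (hv t x hx), hf.nonneg, fun i => ?_⟩
  have hb : ∀ j, ∃ C, ∀ y ∈ K, ‖iteratedFDerivWithin ℝ j g U y‖ ≤ C := fun j =>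
    hK.exists_bound_of_continuousOn
      ((hg.continuousOn_iteratedFDerivWithin (by exact WithTop.coe_le_coe.2 le_top) hU.uniqueDiffOn).mono hKU)
  choose c hc using hb
  choose C hC0 hC using hf.bound
  set Cg := ∑ j ∈ Finset.range (i + 1), |c j| with hCg
  set A := 1 + ∑ j ∈ Finset.range (i + 1), C j with hA
  have hA1 : 1 ≤ A := le_add_of_nonneg_right (sum_nonneg fun j _ => hC0 j)
  refine ⟨i.factorial * Cg * A ^ i, by positivity, fun t x hx => ?_⟩
  have h := norm_iteratedFDerivWithin_comp_le (𝕜 := ℝ) (g := g) (f := f t) (n := i) (s := σ.S t)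
    (t := U) (x := x) (C := Cg) (D := A * σ.B t) hg (hf.smooth t) (by exact WithTop.coe_le_coe.2 le_top) hU.uniqueDiffOn
    (σ.isOpen t).uniqueDiffOn (fun y hy => hKU (hv t y hy)) hx
    (fun j hj => (hc j _ (hv t x hx)).trans ((le_abs_self _).trans
      (single_le_sum (fun l _ => abs_nonneg (c l)) (Finset.mem_range.2 (by omega)))))
    (fun j hj1 hj => by
      rw [iteratedFDerivWithin_of_isOpen j (σ.isOpen t) hx, mul_pow]
      refine (hC j t x hx).trans ?_
      rw [mul_one]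
      refine mul_le_mul_of_nonneg_right ?_ (pow_nonneg (zero_le_one.trans (σ.one_le t)) j)
      calc C j ≤ A := (single_le_sum (fun l _ => hC0 l) (Finset.mem_range.2 (by omega))).trans
              (le_add_of_nonneg_left zero_le_one)
        _ ≤ A ^ j := le_self_pow₀ hA1 (by omega))
  rw [iteratedFDerivWithin_of_isOpen i (σ.isOpen t) hx] at h
  refine h.trans (le_of_eq ?_)
  rw [mul_pow, mul_one]
  simp only [mul_assoc]

/-- Composition with a map homogeneous of degree `r` on positive numbers: inverses and roots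
keep the relative cost. -/
theorem comp_homog {f : ι → X → ℝ} (hf : Cost σ w f) {c : ℝ} (hc : 0 < c)
    (hw : ∀ t, ∀ x ∈ σ.S t, 0 < w t x) (hlo : ∀ t, ∀ x ∈ σ.S t, c * w t x ≤ f t x)
    {g : ℝ → ℝ} (hg : ContDiffOn ℝ ∞ g (Ioi 0)) {r : ℝ} (hr : r ≤ 0 ∨ 0 ≤ r)
    (hh : ∀ a b, 0 < a → 0 < b → g (a * b) = a ^ r * g b) :
    Cost σ (fun t x => w t x ^ r) fun t x => g (f t x) := by
  have hpos : ∀ t, ∀ x ∈ σ.S t, 0 < f t x := fun t x hx =>
    (mul_pos hc (hw t x hx)).trans_le (hlo t x hx)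
  refine ⟨fun t => hg.comp (hf.smooth t) fun x hx => hpos t x hx,
    fun t x hx => Real.rpow_nonneg (hf.nonneg t x hx) r, fun i => ?_⟩
  have hb : ∀ j, ∃ C, ∀ y ∈ ({1} : Set ℝ), ‖iteratedFDerivWithin ℝ j g (Ioi 0) y‖ ≤ C := fun j =>
    isCompact_singleton.exists_bound_of_continuousOn
      ((hg.continuousOn_iteratedFDerivWithin (by exact WithTop.coe_le_coe.2 le_top) isOpen_Ioi.uniqueDiffOn).mono (by simp))
  choose cg hcg using hb
  choose C hC0 hC using hf.bound
  set Cg := ∑ j ∈ Finset.range (i + 1), |cg j| with hCg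
  set A := 1 + ∑ j ∈ Finset.range (i + 1), C j / c with hA
  have hA0 : ∀ l ∈ Finset.range (i + 1), 0 ≤ C l / c := fun l _ => div_nonneg (hC0 l) hc.le
  have hA1 : 1 ≤ A := le_add_of_nonneg_right (sum_nonneg hA0)
  refine ⟨max (C 0 ^ r) (c ^ r) * (i.factorial * Cg * A ^ i),
    mul_nonneg (le_max_of_le_right (Real.rpow_nonneg hc.le r)) (by positivity), fun t x hx => ?_⟩
  have f0 := hpos t x hx
  have hB : 0 ≤ σ.B t := zero_le_one.trans (σ.one_le t)
  have hu : ∀ y ∈ σ.S t, g (f t y) = f t x ^ r • (g ∘ fun z => (f t x)⁻¹ * f t z) y :=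
    fun y hy => by
      have := hh (f t x) ((f t x)⁻¹ * f t y) f0 (mul_pos (inv_pos.2 f0) (hpos t y hy))
      rw [← mul_assoc, mul_inv_cancel₀ f0.ne', one_mul] at this
      simpa [smul_eq_mul] using this
  have hs : ContDiffOn ℝ ∞ (fun z => (f t x)⁻¹ * f t z) (σ.S t) :=
    contDiffOn_const.mul (hf.smooth t)
  have hmap : MapsTo (fun z => (f t x)⁻¹ * f t z) (σ.S t) (Ioi 0) :=
    fun y hy => mul_pos (inv_pos.2 f0) (hpos t y hy)
  have h := norm_iteratedFDerivWithin_comp_le (𝕜 := ℝ) (g := g)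
    (f := fun z => (f t x)⁻¹ * f t z) (n := i) (s := σ.S t) (t := Ioi 0) (x := x) (C := Cg)
    (D := A * σ.B t) hg hs (by exact WithTop.coe_le_coe.2 le_top) isOpen_Ioi.uniqueDiffOn (σ.isOpen t).uniqueDiffOn hmap hx
    (fun j hj => (hcg j _ (by simp [f0.ne'])).trans ((le_abs_self _).trans
      (single_le_sum (fun l _ => abs_nonneg (cg l)) (Finset.mem_range.2 (by omega)))))
    (fun j hj1 hj => by
      have e : (fun z => (f t x)⁻¹ * f t z) = (f t x)⁻¹ • f t := rfl
      rw [iteratedFDerivWithin_of_isOpen j (σ.isOpen t) hx, e,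
        iteratedFDeriv_const_smul_apply (hf.contDiffAt hx j), norm_smul, Real.norm_eq_abs,
        abs_of_pos (inv_pos.2 f0), mul_pow]
      calc (f t x)⁻¹ * ‖iteratedFDeriv ℝ j (f t) x‖
          ≤ (f t x)⁻¹ * (C j * w t x * σ.B t ^ j) :=
            mul_le_mul_of_nonneg_left (hC j t x hx) (inv_nonneg.2 f0.le)
        _ ≤ C j / c * σ.B t ^ j := by
            rw [show (f t x)⁻¹ * (C j * w t x * σ.B t ^ j) =
              C j * σ.B t ^ j * (w t x / f t x) by field_simp,
              show C j / c * σ.B t ^ j = C j * σ.B t ^ j * (1 / c) by field_simp]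
            refine mul_le_mul_of_nonneg_left ?_ (mul_nonneg (hC0 j) (pow_nonneg hB j))
            rw [div_le_div_iff₀ f0 hc, one_mul, mul_comm]
            exact hlo t x hx
        _ ≤ A ^ j * σ.B t ^ j := by
            refine mul_le_mul_of_nonneg_right ?_ (pow_nonneg hB j)
            exact ((single_le_sum hA0 (Finset.mem_range.2 (show j < i + 1 by omega))).trans
              (le_add_of_nonneg_left zero_le_one)).trans (le_self_pow₀ hA1 (by omega)))
  rw [iteratedFDerivWithin_of_isOpen i (σ.isOpen t) hx] at h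
  have e : (fun y => g (f t y)) =ᶠ[nhds x] f t x ^ r • (g ∘ fun z => (f t x)⁻¹ * f t z) := by
    filter_upwards [(σ.isOpen t).mem_nhds hx] with y hy using hu y hy
  have hcd : ContDiffAt ℝ i (g ∘ fun z => (f t x)⁻¹ * f t z) x :=
    ((hg.comp hs hmap).contDiffAt ((σ.isOpen t).mem_nhds hx)).of_le (by exact WithTop.coe_le_coe.2 le_top)
  rw [(e.iteratedFDeriv ℝ i).eq_of_nhds, iteratedFDeriv_const_smul_apply hcd, norm_smul,
    Real.norm_eq_abs, abs_of_pos (Real.rpow_pos_of_pos f0 r)]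
  have hrb : f t x ^ r ≤ max (C 0 ^ r) (c ^ r) * w t x ^ r := by
    rcases hr with hr | hr
    · refine (Real.rpow_le_rpow_of_nonpos (mul_pos hc (hw t x hx)) (hlo t x hx) hr).trans ?_
      rw [Real.mul_rpow hc.le (hw t x hx).le]
      exact mul_le_mul_of_nonneg_right (le_max_right _ _) (Real.rpow_nonneg (hw t x hx).le r)
    · have h0 := hC 0 t x hx
      rw [norm_iteratedFDeriv_zero, pow_zero, mul_one, Real.norm_eq_abs, abs_of_pos f0] at h0
      refine (Real.rpow_le_rpow f0.le h0 hr).trans ?_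
      rw [Real.mul_rpow (hC0 0) (hw t x hx).le]
      exact mul_le_mul_of_nonneg_right (le_max_left _ _) (Real.rpow_nonneg (hw t x hx).le r)
  refine (mul_le_mul hrb h (norm_nonneg _) (mul_nonneg (le_max_of_le_right
    (Real.rpow_nonneg hc.le r)) (Real.rpow_nonneg (hw t x hx).le r))).trans (le_of_eq ?_)
  rw [mul_pow]
  ring

theorem inv {f : ι → X → ℝ} (hf : Cost σ w f) {c : ℝ} (hc : 0 < c)
    (hw : ∀ t, ∀ x ∈ σ.S t, 0 < w t x) (hlo : ∀ t, ∀ x ∈ σ.S t, c * w t x ≤ f t x) :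
    Cost σ (fun t x => (w t x)⁻¹) fun t x => (f t x)⁻¹ := by
  have h := hf.comp_homog hc hw hlo (g := fun y => y⁻¹) (r := -1)
    (contDiffOn_id.inv fun y hy => (ne_of_gt hy)) (Or.inl (by norm_num))
    (fun a b ha _ => by rw [Real.rpow_neg_one, mul_inv])
  simpa only [Real.rpow_neg_one] using h

theorem sqrt {f : ι → X → ℝ} (hf : Cost σ w f) {c : ℝ} (hc : 0 < c)
    (hw : ∀ t, ∀ x ∈ σ.S t, 0 < w t x) (hlo : ∀ t, ∀ x ∈ σ.S t, c * w t x ≤ f t x) :
    Cost σ (fun t x => Real.sqrt (w t x)) fun t x => Real.sqrt (f t x) := by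
  have h := hf.comp_homog hc hw hlo (g := Real.sqrt) (r := 1 / 2)
    (contDiffOn_id.sqrt fun y hy => (ne_of_gt hy)) (Or.inr (by norm_num))
    (fun a b ha _ => by rw [Real.sqrt_mul ha.le, Real.sqrt_eq_rpow a])
  simpa only [← Real.sqrt_eq_rpow] using h

end Cost

end Vale.Agent.P205.Wave
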