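import Vale.Agent.P205.Wave.Sized
import Vale.Agent.P205.Wave.Expand

/-!
Sizes of the frame of a wave and of its first corrector.
-/

noncomputable section

open Set Finset Real
open scoped ContDiff

namespace Vale.Agent.P205.Wave

variable {ι E : Type} [NormedAddCommGroup E] [NormedSpace ℝ E] [FiniteDimensional ℝ E]

namespace Data

/-- What the size estimates ask of a family of waves: bounded data, gram, distance to the plane
and amplitude with relative derivative cost, and lower bounds `1 / M`. -/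
structure Bounds (μ : Mag ι E) (W : ι → Data E) : Prop where
  good : ∀ t, (W t).Good
  dom : ∀ t, μ.S t ⊆ (W t).Ω
  norm_v : ∀ t, ‖(W t).v‖ ≤ μ.M t
  norm_e : ∀ t, ‖(W t).e‖ ≤ μ.M t
  ze : Sz μ 0 1 fun t => (W t).Ze
  zv : Sz μ 0 1 fun t => (W t).Zv
  gram : Cost μ.toScale (fun t x => gram2 ((W t).Ze x) ((W t).Zee x))
    fun t x => gram2 ((W t).Ze x) ((W t).Zee x)
  gram_lo : ∀ t, ∀ x ∈ μ.S t, 1 ≤ μ.M t * gram2 ((W t).Ze x) ((W t).Zee x)
  aaSq : Cost μ.toScale (fun t x => (W t).aa x ^ 2) fun t x => (W t).aa x ^ 2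
  aa_lo : ∀ t, ∀ x ∈ μ.S t, 1 ≤ μ.M t * (W t).aa x ^ 2
  rho : Sz μ 1 0 fun t => (W t).rho
  rhoRel : Cost μ.toScale (fun t x => (W t).ell x) fun t => (W t).rho
  err : ∀ n, Sz μ.fast 1 n fun t p => (W t).Err n p.1 p.2

namespace Bounds

variable {μ : Mag ι E} {W : ι → Data E} (hW : Bounds μ W)
include hW

theorem memΩ {t : ι} {x : E} (hx : x ∈ μ.S t) : x ∈ (W t).Ω := hW.dom t hx

theorem aaPos : ∀ t, ∀ x ∈ μ.S t, 0 < (W t).aa x :=
  fun t _ hx => aa_pos' (hW.good t) (hW.memΩ hx)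

theorem ellPos : ∀ t, ∀ x ∈ μ.S t, 0 < (W t).ell x :=
  fun t _ hx => ell_pos (hW.good t) (hW.memΩ hx)

theorem ellSq {t : ι} {x : E} (_hx : x ∈ μ.S t) :
    (W t).ell x ^ 2 = (W t).aa x ^ 2 + (W t).rho x ^ 2 := Real.sq_sqrt (by positivity)

theorem aa_le_ell {t : ι} {x : E} (hx : x ∈ μ.S t) : (W t).aa x ≤ (W t).ell x :=
  (abs_le_of_sq_le_sq' (by rw [hW.ellSq hx]; exact le_add_of_nonneg_right (sq_nonneg _))
    (hW.ellPos t x hx).le).2

theorem inv_aa_le {t : ι} {x : E} (hx : x ∈ μ.S t) : ((W t).aa x)⁻¹ ≤ μ.M t := by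
  have ha := hW.aaPos t x hx
  rw [inv_le_iff_one_le_mul₀' ha]
  nlinarith [hW.aa_lo t x hx, μ.one_le_M t, mul_pos ha (zero_lt_one.trans_le (μ.one_le_M t))]

theorem zee : Sz μ 0 3 fun t => (W t).Zee :=
  hW.ze.deriv (fun t => (W t).e) hW.norm_e

theorem invGram : Sz μ 0 1 fun t x => (gram2 ((W t).Ze x) ((W t).Zee x))⁻¹ :=
  (hW.gram.rel_inv fun t x hx => (hW.good t).gram_pos x (hW.memΩ hx)).sz zero_le_one
    fun t x hx => by
      have := (hW.good t).gram_pos x (hW.memΩ hx)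
      rw [pow_zero, pow_one, one_mul, one_mul, inv_le_iff_one_le_mul₀' this, mul_comm]
      exact hW.gram_lo t x hx

/-- Vectors of the plane with prescribed products. -/
theorem lift_slow {d m : ℕ} {a b : ι → E → ℝ} (ha : Sz μ d m a) (hb : Sz μ d m b) :
    Sz μ d (m + 8) fun t x => (W t).lift x (a t x) (b t x) := by
  have g := hW.invGram
  have pp := hW.ze.ip hW.ze
  have qq := hW.zee.ip hW.zee
  have pq := hW.ze.ip hW.zee
  refine ((((((ha.mul qq).le le_rfl le_rfl).sub ((hb.mul pq).le le_rfl (by omega))).mul g).smul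
    hW.ze).le (by omega) (by omega) |>.add
    ((((((hb.mul pp).le le_rfl (m' := m + (1 + 3)) (by omega)).sub (ha.mul pq)).mul g).smul
      hW.zee).le (by omega) (by omega))).congr fun t x _ => ?_
  simp only [lift, lift2, div_eq_mul_inv]

theorem bb : Sz μ 0 12 fun t => (W t).bb :=
  hW.lift_slow ((hW.zv.ip hW.ze).le le_rfl (m' := 4) (by omega))
    ((hW.zv.ip hW.zee).le le_rfl (by omega))

theorem aaRel : Cost μ.toScale (fun t x => (W t).aa x) fun t x => (W t).aa x := by
  have h := hW.aaSq.rel_sqrt fun t x hx => pow_pos (hW.aaPos t x hx) 2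
  refine (h.mono zero_le_one (fun t x hx => (hW.aaPos t x hx).le) fun t x hx => ?_).congr
    fun t x hx => ?_
  · rw [one_mul, Real.sqrt_sq (hW.aaPos t x hx).le]
  · rw [Real.sqrt_sq (hW.aaPos t x hx).le]

theorem invAa : Sz μ 0 1 fun t x => ((W t).aa x)⁻¹ :=
  (hW.aaRel.rel_inv hW.aaPos).sz zero_le_one fun t x hx => by
    simpa using hW.inv_aa_le hx

theorem aaSqSz : Sz μ 0 24 fun t x => (W t).aa x ^ 2 := by
  have h := (hW.zv.le le_rfl (show (1 : ℕ) ≤ 12 by omega)).sub hW.bb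
  refine (h.ip h).congr fun t x hx => ?_
  exact Real.sq_sqrt ((hW.good t).aa_pos x (hW.memΩ hx)).le

theorem aa : Sz μ 0 25 fun t x => (W t).aa x :=
  (hW.aaSqSz.mul hW.invAa).congr fun t x hx => by
    have := (hW.aaPos t x hx).ne'
    field_simp

theorem tau : Sz μ 0 13 fun t => (W t).tau :=
  (hW.invAa.smul ((hW.zv.le le_rfl (show (1 : ℕ) ≤ 12 by omega)).sub hW.bb)).congr fun t x _ => by
    simp only [Data.tau, one_div]

theorem invSqrtGram : Sz μ 0 1 fun t x => (Real.sqrt (gram2 ((W t).Ze x) ((W t).Zee x)))⁻¹ :=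
  ((hW.gram.rel_sqrt fun t x hx => (hW.good t).gram_pos x (hW.memΩ hx)).rel_inv fun t x hx =>
      Real.sqrt_pos.2 ((hW.good t).gram_pos x (hW.memΩ hx))).sz zero_le_one fun t x hx => by
    have hg := (hW.good t).gram_pos x (hW.memΩ hx)
    rw [pow_zero, pow_one, one_mul, one_mul, inv_le_iff_one_le_mul₀' (Real.sqrt_pos.2 hg)]
    have hM := μ.one_le_M t
    have e := Real.sq_sqrt hg.le
    nlinarith [hW.gram_lo t x hx, Real.sqrt_pos.2 hg]

theorem nu : Sz μ 0 18 fun t => (W t).nu := by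
  have hc : Sz μ 0 17 fun t x => cross ((W t).Ze x) ((W t).Zee x) ((W t).tau x) := by
    refine Sz.pi fun i => ?_
    have p := hW.ze.proj
    have q := hW.zee.proj
    have r := hW.tau.proj
    have m3 : ∀ a b c : Fin 4, Sz μ 0 17 fun t x =>
        (W t).Ze x a * ((W t).Zee x b * (W t).tau x c) := fun a b c => (p a).mul ((q b).mul (r c))
    have T : ∀ a b c : Fin 4, Sz μ 0 17 fun t x => (W t).Ze x a *
        ((W t).Zee x b * (W t).tau x c - (W t).Zee x c * (W t).tau x b) := fun a b c =>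
      ((m3 a b c).sub (m3 a c b)).congr fun t x _ => by ring
    fin_cases i <;> simp only [cross, Matrix.cons_val_zero, Matrix.cons_val_one,
      Matrix.cons_val_two, Matrix.cons_val_three, Matrix.head_cons, Matrix.tail_cons]
    · exact ((((T 1 2 3).sub (T 2 1 3)).add (T 3 1 2)).neg).congr fun t x _ => by simp
    · exact (((T 0 2 3).sub (T 2 0 3)).add (T 3 0 2)).congr fun t x _ => by simp
    · exact ((((T 0 1 3).sub (T 1 0 3)).add (T 3 0 1)).neg).congr fun t x _ => by simp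
    · exact (((T 0 1 2).sub (T 1 0 2)).add (T 2 0 1)).congr fun t x _ => by simp
  exact (hW.invSqrtGram.smul hc).congr fun t x _ => by simp only [Data.nu, one_div]

theorem ellSqRel : Cost μ.toScale (fun t x => (W t).ell x ^ 2) fun t x => (W t).ell x ^ 2 := by
  have h1 := hW.aaSq.mono zero_le_one (w' := fun t x => (W t).ell x ^ 2)
    (fun t x _ => sq_nonneg _) fun t x hx => by
      rw [one_mul, hW.ellSq hx]; exact le_add_of_nonneg_right (sq_nonneg _)
  have h2 := (hW.rhoRel.mul hW.rhoRel).mono zero_le_one (w' := fun t x => (W t).ell x ^ 2)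
    (fun t x _ => sq_nonneg _) fun t x _ => le_of_eq (by ring)
  exact (h1.add h2).congr fun t x hx => by rw [hW.ellSq hx]; ring

theorem ellRel : Cost μ.toScale (fun t x => (W t).ell x) fun t x => (W t).ell x := by
  have h := hW.ellSqRel.rel_sqrt fun t x hx => pow_pos (hW.ellPos t x hx) 2
  refine (h.mono zero_le_one (fun t x hx => (hW.ellPos t x hx).le) fun t x hx => ?_).congr
    fun t x hx => ?_
  · rw [one_mul, Real.sqrt_sq (hW.ellPos t x hx).le]
  · rw [Real.sqrt_sq (hW.ellPos t x hx).le]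

theorem invEll : Sz μ 0 1 fun t x => ((W t).ell x)⁻¹ :=
  (hW.ellRel.rel_inv hW.ellPos).sz zero_le_one fun t x hx => by
    simpa using (inv_anti₀ (hW.aaPos t x hx) (hW.aa_le_ell hx)).trans (hW.inv_aa_le hx)

theorem ell : Sz μ 0 25 fun t x => (W t).ell x :=
  (((hW.aaSqSz).add ((hW.rho.mul hW.rho).le (by omega) (by omega))).mul hW.invEll).congr
    fun t x hx => by
      have := (hW.ellPos t x hx).ne'
      field_simp
      linear_combination hW.ellSq hx

/-- The amplitude is bounded and small. -/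
theorem amp : Cost μ.toScale (fun _ _ => 1) (fun t x => (W t).amp x) ∧
    Sz μ 1 1 fun t x => (W t).amp x := by
  have hle : ∀ t, ∀ x ∈ μ.S t, 0 < (W t).aa x ∧ (W t).aa x ≤ (W t).ell x := fun t x hx =>
    ⟨hW.aaPos t x hx, hW.aa_le_ell hx⟩
  have hnn : ∀ t, ∀ x ∈ μ.S t, 0 ≤ (W t).ell x := fun t x hx => (hW.ellPos t x hx).le
  have haa := hW.aaRel.mono zero_le_one hnn fun t x hx => by
    rw [one_mul]; exact hW.aa_le_ell hx
  have h3 : Cost μ.toScale (fun t x => (W t).ell x) fun t x => 3 * (W t).ell x + (W t).aa x :=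
    ((((Cost.const (3 : ℝ)).mul hW.ellRel).mono zero_le_one hnn fun t x _ =>
      le_of_eq (by ring)).add haa)
  have s3 := h3.sqrt one_pos hW.ellPos fun t x hx => by
    have := hle t x hx; linarith
  have h1 := hW.ellRel.add haa
  have c3 := ((h1.mul h1).mul h1).mono zero_le_one (w' := fun t x => (W t).ell x ^ 3)
    (fun t x hx => pow_nonneg (hnn t x hx) 3) fun t x _ => le_of_eq (by ring)
  have hp : ∀ t, ∀ x ∈ μ.S t,
      (W t).ell x ^ 3 ≤ ((W t).ell x + (W t).aa x) ^ 3 := fun t x hx =>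
    pow_le_pow_left₀ (hnn t x hx) (le_add_of_nonneg_right (hle t x hx).1.le) 3
  have r3 := (c3.sqrt one_pos (fun t x hx => pow_pos (hW.ellPos t x hx) 3) fun t x hx => by
    rw [one_mul]; exact (hp t x hx).trans (le_of_eq (by ring))).inv one_pos
      (fun t x hx => Real.sqrt_pos.2 (pow_pos (hW.ellPos t x hx) 3)) fun t x hx => by
        rw [one_mul]; exact Real.sqrt_le_sqrt ((hp t x hx).trans (le_of_eq (by ring)))
  have ew : ∀ t, ∀ x ∈ μ.S t,
      Real.sqrt ((W t).ell x) * (Real.sqrt ((W t).ell x ^ 3))⁻¹ = ((W t).ell x)⁻¹ := by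
    intro t x hx
    have hl := hW.ellPos t x hx
    rw [show (W t).ell x ^ 3 = (W t).ell x ^ 2 * (W t).ell x by ring,
      Real.sqrt_mul (sq_nonneg _), Real.sqrt_sq hl.le]
    have := (Real.sqrt_pos.2 hl).ne'
    field_simp
  have e : ∀ t, ∀ x ∈ μ.S t, (W t).amp x = (W t).rho x *
      (Real.sqrt (3 * (W t).ell x + (W t).aa x) *
        (Real.sqrt (((W t).ell x + (W t).aa x) * ((W t).ell x + (W t).aa x) *
          ((W t).ell x + (W t).aa x)))⁻¹) := fun t x _ => by
    rw [Data.amp, show ((W t).ell x + (W t).aa x) ^ 3 = ((W t).ell x + (W t).aa x) *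
      ((W t).ell x + (W t).aa x) * ((W t).ell x + (W t).aa x) by ring]
    ring
  constructor
  · refine ((hW.rhoRel.mul (s3.mul r3)).mono zero_le_one (fun _ _ _ => zero_le_one)
      fun t x hx => ?_).congr e
    rw [ew t x hx, mul_inv_cancel₀ (hW.ellPos t x hx).ne', one_mul]
  · refine ((hW.rho.mul (d' := 0) (m' := 1) (Cost.sz (s3.mul r3) zero_le_one fun t x hx => ?_)).congr e)
    rw [ew t x hx]
    simpa using (inv_anti₀ (hW.aaPos t x hx) (hW.aa_le_ell hx)).trans (hW.inv_aa_le hx)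

omit hW in
theorem sinFast : Cost μ.fast.toScale (fun _ _ => 1) fun _ p => Real.sin p.2 :=
  Cost.sin (ContinuousLinearMap.snd ℝ E ℝ) (ContinuousLinearMap.norm_snd_le ℝ E ℝ)

/-- Bounded and small profiles. -/
theorem profile : Sz μ.fast 1 1 (fun t p => (W t).sn p.1 p.2) ∧
    Sz μ.fast 0 0 (fun t p => (W t).sn p.1 p.2) ∧ Sz μ.fast 0 0 (fun t p => (W t).cs p.1 p.2) ∧
    Sz μ.fast 1 1 fun t p => 1 - (W t).cs p.1 p.2 := by
  set u : ι → E × ℝ → ℝ := fun t p => (W t).amp p.1 * Real.sin p.2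
  have hu : Cost μ.fast.toScale (fun _ _ => 1) u :=
    ((hW.amp.1.fast).mul sinFast).mono zero_le_one (fun _ _ _ => zero_le_one) fun _ _ _ => by simp
  have hu0 : Sz μ.fast 0 0 u := hu.sz zero_le_one fun _ _ _ => by simp
  have hu1 : Sz μ.fast 1 1 u :=
    hW.amp.2.fast.mul (d' := 0) (m' := 0) (sinFast.sz zero_le_one fun _ _ _ => by simp)
  obtain ⟨R, -, hR⟩ := hu.abs_le
  have hg : Sz μ.fast 0 0 fun t p => (1 + u t p ^ 2)⁻¹ :=
    (hu.comp_smooth (g := fun y : ℝ => (1 + y ^ 2)⁻¹) isOpen_univ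
      (isCompact_Icc (a := -R) (b := R)) (subset_univ _)
      ((contDiff_const.add (contDiff_id.pow 2)).inv fun y => by
        have : (0 : ℝ) < 1 + id y ^ 2 := by positivity
        exact this.ne').contDiffOn fun t p hp =>
          Set.mem_Icc.2 (abs_le.1 ((hR t p hp).trans (le_of_eq (mul_one R))))).sz zero_le_one
      fun _ _ _ => by simp
  have two : Sz μ.fast 0 0 fun _ _ => (2 : ℝ) := Sz.const 2
  have h1 : Sz μ.fast 1 1 fun t p => 1 - (W t).cs p.1 p.2 :=
    (two.mul ((hu1.mul hu0).mul hg)).congr fun t p _ => by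
      simp only [Data.cs, u]; field_simp; ring
  have h2 : Sz μ.fast 1 1 fun t p => (W t).sn p.1 p.2 :=
    (two.mul (hu1.mul hg)).congr fun t p _ => by simp only [Data.sn, u]; field_simp
  refine ⟨h2, (two.mul (hu0.mul hg)).congr fun t p _ => by
    simp only [Data.sn, u]; field_simp, ?_, h1⟩
  exact ((Sz.const (1 : ℝ)).sub (two.mul ((hu0.mul hu0).mul hg))).congr fun t p _ => by
    simp only [Data.cs, u]; field_simp; ring

theorem dY1 : Sz μ.fast 1 44 fun t p => (W t).dY1 p.1 p.2 := by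
  obtain ⟨s1, -, -, c1⟩ := hW.profile
  have hnn : ∀ t, ∀ x ∈ μ.S t, 0 ≤ (W t).ell x := fun t x hx => (hW.ellPos t x hx).le
  have h := hW.ellRel.add (hW.aaRel.mono zero_le_one hnn fun t x hx => by
    rw [one_mul]; exact hW.aa_le_ell hx)
  have hi := h.inv one_pos hW.ellPos fun t x hx => by
    have := hW.aaPos t x hx; linarith
  have hd : Sz μ 1 0 fun t x => (W t).ell x - (W t).aa x :=
    ((Cost.mul hW.rho hW.rhoRel).mul hi).sz zero_le_one (d := 1) (m := 0) (fun t x hx => by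
      have := (hW.ellPos t x hx).ne'
      exact le_of_eq (by field_simp)) |>.congr fun t x hx => by
      have := hW.ellPos t x hx
      have := hW.aaPos t x hx
      field_simp
      linear_combination hW.ellSq hx
  have a1 := ((hd.fast.le le_rfl (m' := 26) (by omega)).sub
    ((hW.ell.fast.mul c1).le le_rfl le_rfl)).smul hW.tau.fast
  have a2 := (hW.ell.fast.mul s1).smul hW.nu.fast
  refine ((a1.le (d' := 1) (m' := 44) (by omega) (by omega)).add
    (a2.le (by omega) (by omega))).congr fun t p _ => ?_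
  simp only [Data.dY1]
  congr 2
  ring

theorem Y1 : Sz μ.fast 1 44 fun t p => (W t).Y1 p.1 p.2 :=
  hW.dY1.prim (fun t x _ => per_dY1 x) fun t _ hx => mean_dY1 (hW.good t) (hW.memΩ hx)

theorem vel : Sz μ.fast 0 44 fun t p => (W t).vel p.1 p.2 :=
  ((hW.zv.fast.le le_rfl (by omega)).add (hW.dY1.le zero_le_one le_rfl)).congr fun _ _ _ => rfl

theorem invMeanCs : Sz μ 0 26 fun t x => (Wave.mean ((W t).cs x))⁻¹ :=
  (hW.ell.mul hW.invAa).congr fun t x hx => by
    rw [mean_cs (hW.good t) (hW.memΩ hx), inv_div, div_eq_mul_inv]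

end Bounds

end Data

end Vale.Agent.P205.Wave
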