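import Vale.Agent.P205.Wave.Param

/-!
Scalar products in four variables, the frame of a wave and closure properties of smooth
periodic families.
-/

noncomputable section

open Set Finset Real
open scoped ContDiff

namespace Vale.Agent.P205.Wave

/-- Four dimensional vectors. -/
abbrev V4 := Fin 4 → ℝ

/-- The Euclidean scalar product. -/
def ip (a b : V4) : ℝ := ∑ i, a i * b i

theorem ip_comm (a b : V4) : ip a b = ip b a := sum_congr rfl fun i _ => mul_comm _ _

@[simp] theorem ip_add_left (a b c : V4) : ip (a + b) c = ip a c + ip b c := by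
  simp [ip, add_mul, sum_add_distrib]

@[simp] theorem ip_add_right (a b c : V4) : ip c (a + b) = ip c a + ip c b := by
  simp [ip, mul_add, sum_add_distrib]

@[simp] theorem ip_sub_left (a b c : V4) : ip (a - b) c = ip a c - ip b c := by
  simp [ip, sub_mul, sum_sub_distrib]

@[simp] theorem ip_sub_right (a b c : V4) : ip c (a - b) = ip c a - ip c b := by
  simp [ip, mul_sub, sum_sub_distrib]

@[simp] theorem ip_smul_left (r : ℝ) (a b : V4) : ip (r • a) b = r * ip a b := by
  simp [ip, mul_sum, mul_assoc]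

@[simp] theorem ip_smul_right (r : ℝ) (a b : V4) : ip a (r • b) = r * ip a b := by
  simp [ip, mul_sum, mul_left_comm]

@[simp] theorem ip_zero_left (a : V4) : ip 0 a = 0 := by simp [ip]

@[simp] theorem ip_zero_right (a : V4) : ip a 0 = 0 := by simp [ip]

/-- Gram determinant. -/
def gram2 (p q : V4) : ℝ := ip p p * ip q q - ip p q ^ 2

/-- The vector of the plane of `p, q` with scalar products `a, b`. -/
def lift2 (p q : V4) (a b : ℝ) : V4 :=
  ((a * ip q q - b * ip p q) / gram2 p q) • p + ((b * ip p p - a * ip p q) / gram2 p q) • q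

theorem ip_lift2 {p q : V4} (h : gram2 p q ≠ 0) (a b : ℝ) :
    ip p (lift2 p q a b) = a ∧ ip q (lift2 p q a b) = b := by
  simp only [lift2, ip_add_right, ip_smul_right, ip_comm q p]
  constructor <;> field_simp <;> unfold gram2 <;> ring

theorem ip_lift2_perp {p q w : V4} (hp : ip w p = 0) (hq : ip w q = 0) (a b : ℝ) :
    ip w (lift2 p q a b) = 0 := by
  simp [lift2, hp, hq]

/-- The cross product of three vectors. -/
def cross (p q r : V4) : V4 :=
  ![-(p 1 * (q 2 * r 3 - q 3 * r 2) - p 2 * (q 1 * r 3 - q 3 * r 1) + p 3 * (q 1 * r 2 - q 2 * r 1)),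
    p 0 * (q 2 * r 3 - q 3 * r 2) - p 2 * (q 0 * r 3 - q 3 * r 0) + p 3 * (q 0 * r 2 - q 2 * r 0),
    -(p 0 * (q 1 * r 3 - q 3 * r 1) - p 1 * (q 0 * r 3 - q 3 * r 0) + p 3 * (q 0 * r 1 - q 1 * r 0)),
    p 0 * (q 1 * r 2 - q 2 * r 1) - p 1 * (q 0 * r 2 - q 2 * r 0) + p 2 * (q 0 * r 1 - q 1 * r 0)]

theorem ip_cross (p q r : V4) :
    ip p (cross p q r) = 0 ∧ ip q (cross p q r) = 0 ∧ ip r (cross p q r) = 0 := by
  simp only [ip, cross, Fin.sum_univ_four]
  simp
  refine ⟨?_, ?_, ?_⟩ <;> ring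

theorem ip_cross_self (p q r : V4) :
    ip (cross p q r) (cross p q r) = ip r r * gram2 p q - ip p r ^ 2 * ip q q
      + 2 * (ip p q * ip p r * ip q r) - ip q r ^ 2 * ip p p := by
  simp only [gram2, ip, cross, Fin.sum_univ_four]
  simp
  ring

section Smooth

variable {E : Type} [NormedAddCommGroup E] [NormedSpace ℝ E] [FiniteDimensional ℝ E]

/-- Derivative in a fixed direction. -/
def D {F : Type} [NormedAddCommGroup F] [NormedSpace ℝ F] (a : E) (f : E → F) (x : E) : F :=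
  fderiv ℝ f x a

variable {G : Type} [NormedAddCommGroup G] [NormedSpace ℝ G] [CompleteSpace G]
variable {Ω : Set E}

omit [FiniteDimensional ℝ E] [CompleteSpace G] in
theorem contDiffOn_D (hΩ : IsOpen Ω) {f : E → G} (hf : ContDiffOn ℝ ∞ f Ω) (a : E) :
    ContDiffOn ℝ ∞ (D a f) Ω :=
  (hf.fderiv_of_isOpen hΩ (by simp)).clm_apply contDiffOn_const

omit [FiniteDimensional ℝ E] [CompleteSpace G] in
theorem Smooth2.of_fst {f : E → G} (hf : ContDiffOn ℝ ∞ f Ω) : Smooth2 Ω fun x _ => f x :=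
  hf.comp contDiff_fst.contDiffOn fun _ hp => hp.1

omit [FiniteDimensional ℝ E] [CompleteSpace G] in
theorem Smooth2.differentiableAt (hΩ : IsOpen Ω) {f : E → ℝ → G} (hf : Smooth2 Ω f) {x : E}
    (hx : x ∈ Ω) (s : ℝ) : DifferentiableAt ℝ (fun y => f y s) x := by
  have h : ContDiffOn ℝ ∞ (fun y => f y s) Ω :=
    hf.comp (contDiff_prodMk_left s).contDiffOn fun _ hy => ⟨hy, trivial⟩
  exact (h.differentiableOn (by simp)).differentiableAt (hΩ.mem_nhds hx)

omit [FiniteDimensional ℝ E] [CompleteSpace G] in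
theorem Smooth2.de (hΩ : IsOpen Ω) {f : E → ℝ → G} (hf : Smooth2 Ω f) (a : E) :
    Smooth2 Ω fun x s => D a (fun y => f y s) x := by
  have ho : IsOpen (Ω ×ˢ (univ : Set ℝ)) := hΩ.prod isOpen_univ
  refine ((hf.fderiv_of_isOpen ho (m := ∞) (by simp)).clm_apply
    (contDiffOn_const (c := ((a, 0) : E × ℝ)))).congr fun p hp => ?_
  have hd : HasFDerivAt (fun q : E × ℝ => f q.1 q.2) _ (p.1, p.2) :=
    ((hf.differentiableOn (by simp)).differentiableAt (ho.mem_nhds hp)).hasFDerivAt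
  have h2 : HasFDerivAt (fun y => f y p.2) _ p.1 :=
    hd.comp (f := fun y => (y, p.2)) p.1 (hasFDerivAt_prodMk_left p.1 p.2)
  simp only [D]
  rw [h2.fderiv]
  rfl

omit [FiniteDimensional ℝ E] [CompleteSpace G] in
theorem Smooth2.ds (hΩ : IsOpen Ω) {f : E → ℝ → G} (hf : Smooth2 Ω f) :
    Smooth2 Ω fun x s => deriv (f x) s := by
  have ho : IsOpen (Ω ×ˢ (univ : Set ℝ)) := hΩ.prod isOpen_univ
  refine ((hf.fderiv_of_isOpen ho (m := ∞) (by simp)).clm_apply
    (contDiffOn_const (c := ((0, 1) : E × ℝ)))).congr fun p hp => ?_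
  have hd : HasFDerivAt (fun q : E × ℝ => f q.1 q.2) _ (p.1, p.2) :=
    ((hf.differentiableOn (by simp)).differentiableAt (ho.mem_nhds hp)).hasFDerivAt
  have h2 : HasDerivAt (f p.1) _ p.2 :=
    hd.comp_hasDerivAt (f := fun u : ℝ => (p.1, u)) p.2
      ((hasDerivAt_const p.2 p.1).prodMk (hasDerivAt_id p.2))
  exact h2.deriv

omit [FiniteDimensional ℝ E] in
theorem contDiffOn_ip {X : Type} [NormedAddCommGroup X] [NormedSpace ℝ X] {S : Set X}
    {f g : X → V4} (hf : ContDiffOn ℝ ∞ f S) (hg : ContDiffOn ℝ ∞ g S) :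
    ContDiffOn ℝ ∞ (fun x => ip (f x) (g x)) S :=
  ContDiffOn.sum fun i _ => (contDiffOn_pi.1 hf i).mul (contDiffOn_pi.1 hg i)

end Smooth

end Vale.Agent.P205.Wave
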