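import Mathlib

/-!
Smoothness of integrals with parameters in an open set, means and zero mean primitives of
periodic functions.
-/

noncomputable section

open MeasureTheory Set Filter Real
open scoped Topology ContDiff

namespace Vale.Agent.P205.Wave

variable {E : Type} [NormedAddCommGroup E] [NormedSpace ℝ E] [FiniteDimensional ℝ E]

theorem hasFDerivAt_int01 {G : Type} [NormedAddCommGroup G] [NormedSpace ℝ G] [CompleteSpace G]
    {Ω : Set E} (hΩ : IsOpen Ω) {F : E × ℝ → G} (hF : ContDiffOn ℝ 1 F (Ω ×ˢ univ)) {x₀ : E}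
    (hx₀ : x₀ ∈ Ω) :
    HasFDerivAt (fun x => ∫ t in (0:ℝ)..1, F (x, t))
      (∫ t in (0:ℝ)..1, (fderiv ℝ F (x₀, t)).comp (ContinuousLinearMap.inl ℝ E ℝ)) x₀ := by
  have ho : IsOpen (Ω ×ˢ (univ : Set ℝ)) := hΩ.prod isOpen_univ
  have hd : ContinuousOn (fun p => (fderiv ℝ F p).comp (ContinuousLinearMap.inl ℝ E ℝ))
      (Ω ×ˢ univ) := (hF.continuousOn_fderiv_of_isOpen ho le_rfl).clm_comp continuousOn_const
  obtain ⟨r, hr, hb⟩ := Metric.nhds_basis_closedBall.mem_iff.1 (hΩ.mem_nhds hx₀)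
  have hK : IsCompact (Metric.closedBall x₀ r ×ˢ Icc (0:ℝ) 1) :=
    (isCompact_closedBall x₀ r).prod isCompact_Icc
  obtain ⟨C, hC⟩ := hK.exists_bound_of_continuousOn
    (hd.mono (prod_mono hb (subset_univ _)))
  have hsl : ∀ x ∈ Ω, Continuous fun t : ℝ => F (x, t) := fun x hx =>
    hF.continuousOn.comp_continuous (continuous_const.prodMk continuous_id) fun t => ⟨hx, trivial⟩
  refine intervalIntegral.hasFDerivAt_integral_of_dominated_of_fderiv_le
    (F := fun x t => F (x, t))
    (F' := fun x t => (fderiv ℝ F (x, t)).comp (ContinuousLinearMap.inl ℝ E ℝ))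
    (bound := fun _ => C) (Metric.closedBall_mem_nhds x₀ hr) ?_ ?_ ?_ ?_ ?_ ?_
  · filter_upwards [hΩ.mem_nhds hx₀] with x hx using (hsl x hx).aestronglyMeasurable
  · exact (hsl x₀ hx₀).intervalIntegrable 0 1
  · exact (hd.comp_continuous (continuous_const.prodMk continuous_id)
      fun t => ⟨hx₀, trivial⟩).aestronglyMeasurable
  · refine Eventually.of_forall fun t ht x hx => hC (x, t) ⟨hx, ?_⟩
    have ht' : t ∈ Ioc (0:ℝ) 1 := by simpa [uIoc_of_le zero_le_one] using ht
    exact ⟨ht'.1.le, ht'.2⟩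
  · exact intervalIntegrable_const
  · refine Eventually.of_forall fun t _ x hx => ?_
    exact ((hF.differentiableOn one_ne_zero).differentiableAt
      (ho.mem_nhds ⟨hb hx, trivial⟩)).hasFDerivAt.comp x (hasFDerivAt_prodMk_left x t)

theorem contDiffOn_int01_nat {Ω : Set E} (hΩ : IsOpen Ω) (n : ℕ) : ∀ {G : Type}
    [NormedAddCommGroup G] [NormedSpace ℝ G] [CompleteSpace G] {F : E × ℝ → G},
    ContDiffOn ℝ ∞ F (Ω ×ˢ univ) →
      ContDiffOn ℝ (n : ℕ∞) (fun x => ∫ t in (0:ℝ)..1, F (x, t)) Ω := by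
  induction n with
  | zero =>
    intro G _ _ _ F hF
    exact contDiffOn_zero.2 fun x hx =>
      (hasFDerivAt_int01 hΩ (hF.of_le (by simp)) hx).continuousAt.continuousWithinAt
  | succ n ih =>
    intro G _ _ _ F hF
    have hD : ContDiffOn ℝ ∞ (fun p : E × ℝ =>
        (fderiv ℝ F p).comp (ContinuousLinearMap.inl ℝ E ℝ)) (Ω ×ˢ univ) :=
      (hF.fderiv_of_isOpen (hΩ.prod isOpen_univ) (by simp)).clm_comp contDiffOn_const
    have hf := fun x (hx : x ∈ Ω) => hasFDerivAt_int01 hΩ (hF.of_le (by simp)) hx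
    rw [show ((n + 1 : ℕ) : ℕ∞) = ((n : ℕ∞) + 1) by simp]
    push_cast
    rw [contDiffOn_succ_iff_fderiv_of_isOpen hΩ]
    refine ⟨fun x hx => (hf x hx).differentiableAt.differentiableWithinAt, by simp, ?_⟩
    exact (ih hD).congr fun x hx => (hf x hx).fderiv

theorem contDiffOn_int01 {G : Type} [NormedAddCommGroup G] [NormedSpace ℝ G] [CompleteSpace G]
    {Ω : Set E} (hΩ : IsOpen Ω) {F : E × ℝ → G} (hF : ContDiffOn ℝ ∞ F (Ω ×ˢ univ)) :
    ContDiffOn ℝ ∞ (fun x => ∫ t in (0:ℝ)..1, F (x, t)) Ω :=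
  contDiffOn_infty.2 fun n => contDiffOn_int01_nat hΩ n hF

variable {G : Type} [NormedAddCommGroup G] [NormedSpace ℝ G] [CompleteSpace G]

/-- Smooth in the point and the fast variable together. -/
def Smooth2 (Ω : Set E) (f : E → ℝ → G) : Prop :=
  ContDiffOn ℝ ∞ (fun p : E × ℝ => f p.1 p.2) (Ω ×ˢ univ)

/-- Mean over a period. -/
def mean (f : ℝ → G) : G := (1 / (2 * π)) • ∫ s in (0 : ℝ)..(2 * π), f s

/-- The primitive of zero mean of a function of zero mean. -/
def prim (f : ℝ → G) (s : ℝ) : G :=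
  (∫ u in (0 : ℝ)..s, f u) - mean fun r => ∫ u in (0 : ℝ)..r, f u

theorem Smooth2.slice {Ω : Set E} {f : E → ℝ → G} (hf : Smooth2 Ω f) {x : E} (hx : x ∈ Ω) :
    ContDiff ℝ ∞ (f x) :=
  contDiffOn_univ.1 (hf.comp (contDiff_prodMk_right x).contDiffOn fun _ _ => ⟨hx, trivial⟩)

theorem Smooth2.integral {Ω : Set E} (hΩ : IsOpen Ω) {f : E → ℝ → G} (hf : Smooth2 Ω f) :
    Smooth2 Ω fun x s => ∫ u in (0 : ℝ)..s, f x u := by
  have e : ∀ (x : E) (s : ℝ), ∫ u in (0 : ℝ)..s, f x u = ∫ t in (0 : ℝ)..1, s • f x (s * t) := by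
    intro x s
    rw [intervalIntegral.integral_smul]
    simp
  have h : ContDiffOn ℝ ∞ (fun q : (E × ℝ) × ℝ => q.1.2 • f q.1.1 (q.1.2 * q.2))
      ((Ω ×ˢ univ) ×ˢ univ) :=
    (contDiff_snd.comp contDiff_fst).contDiffOn.smul
      (hf.comp (f := fun q : (E × ℝ) × ℝ => (q.1.1, q.1.2 * q.2))
        ((contDiff_fst.comp contDiff_fst).prodMk
          ((contDiff_snd.comp contDiff_fst).mul contDiff_snd)).contDiffOn
        fun q hq => ⟨hq.1.1, trivial⟩)
  exact (contDiffOn_int01 (hΩ.prod isOpen_univ) h).congr fun p _ => e p.1 p.2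

theorem Smooth2.mean {Ω : Set E} (hΩ : IsOpen Ω) {f : E → ℝ → G} (hf : Smooth2 Ω f) :
    ContDiffOn ℝ ∞ (fun x => mean (f x)) Ω :=
  ((hf.integral hΩ).comp (contDiff_prodMk_left (2 * π)).contDiffOn
    fun _ hx => ⟨hx, trivial⟩).const_smul (1 / (2 * π))

theorem Smooth2.prim {Ω : Set E} (hΩ : IsOpen Ω) {f : E → ℝ → G} (hf : Smooth2 Ω f) :
    Smooth2 Ω fun x => prim (f x) :=
  (hf.integral hΩ).sub (((hf.integral hΩ).mean hΩ).comp contDiff_fst.contDiffOn fun _ hp => hp.1)

theorem mean_add {f g : ℝ → G} (hf : Continuous f) (hg : Continuous g) :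
    mean (fun s => f s + g s) = mean f + mean g := by
  rw [mean, intervalIntegral.integral_add (hf.intervalIntegrable _ _) (hg.intervalIntegrable _ _),
    smul_add, mean, mean]

theorem mean_sub {f g : ℝ → G} (hf : Continuous f) (hg : Continuous g) :
    mean (fun s => f s - g s) = mean f - mean g := by
  rw [mean, intervalIntegral.integral_sub (hf.intervalIntegrable _ _) (hg.intervalIntegrable _ _),
    smul_sub, mean, mean]

omit [CompleteSpace G] in
theorem mean_smul (c : ℝ) (f : ℝ → G) : mean (fun s => c • f s) = c • mean f := by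
  rw [mean, intervalIntegral.integral_smul, smul_comm, mean]

theorem mean_mul (c : ℝ) (f : ℝ → ℝ) : mean (fun s => c * f s) = c * mean f := mean_smul c f

theorem mean_smul_const (f : ℝ → ℝ) (v : G) : mean (fun s => f s • v) = mean f • v := by
  rw [mean, intervalIntegral.integral_smul_const, smul_smul, mean, smul_eq_mul]

@[simp] theorem mean_const (c : G) : mean (fun _ => c) = c := by
  rw [mean, intervalIntegral.integral_const, sub_zero, smul_smul,
    one_div_mul_cancel (by positivity), one_smul]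

theorem hasDerivAt_prim {f : ℝ → G} (hf : Continuous f) (s : ℝ) : HasDerivAt (prim f) (f s) s :=
  (hf.integral_hasStrictDerivAt 0 s).hasDerivAt.sub_const _

theorem continuous_prim {f : ℝ → G} (hf : Continuous f) : Continuous (prim f) :=
  continuous_iff_continuousAt.2 fun s => (hasDerivAt_prim hf s).continuousAt

theorem mean_prim {f : ℝ → G} (hf : Continuous f) : mean (prim f) = 0 := by
  have h : Continuous fun r => ∫ u in (0 : ℝ)..r, f u :=
    intervalIntegral.continuous_primitive (fun a b => hf.intervalIntegrable a b) 0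
  unfold prim
  rw [mean_sub h continuous_const, mean_const, sub_self]

theorem periodic_prim {f : ℝ → G} (hf : Continuous f) (hp : Function.Periodic f (2 * π))
    (hm : mean f = 0) : Function.Periodic (prim f) (2 * π) := fun s => by
  have h0 : ∫ u in (0 : ℝ)..(2 * π), f u = 0 := by
    rw [mean, smul_eq_zero] at hm
    exact hm.resolve_left (by positivity)
  have h1 := hp.intervalIntegral_add_eq s 0
  rw [zero_add, h0] at h1
  have e := intervalIntegral.integral_add_adjacent_intervals (hf.intervalIntegrable 0 s)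
    (hf.intervalIntegrable s (s + 2 * π)) (μ := volume)
  rw [h1, add_zero] at e
  unfold prim
  rw [← e]

/-- The mean of `1 / (1 + t² sin²)`. -/
theorem mean_rat (t : ℝ) :
    mean (fun s => 1 / (1 + (t * Real.sin s) ^ 2)) = 1 / Real.sqrt (1 + t ^ 2) := by
  set μ := Real.sqrt (1 + t ^ 2) with hμ
  have hμ1 : 1 ≤ μ := by rw [hμ]; exact Real.one_le_sqrt.2 (by nlinarith)
  have hμ2 : μ ^ 2 = 1 + t ^ 2 := Real.sq_sqrt (by positivity)
  set r := (μ - 1) / (μ + 1) with hr
  have hr0 : 0 ≤ r := div_nonneg (by linarith) (by linarith)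
  have hr1 : r < 1 := (div_lt_one (by linarith)).2 (by linarith)
  have hd : ∀ s, 0 < 1 - r * Real.cos (2 * s) := fun s => by
    nlinarith [Real.cos_le_one (2 * s), Real.neg_one_le_cos (2 * s)]
  have key : ∀ s, HasDerivAt
      (fun s => (1 / μ) * (s + Real.arctan (r * Real.sin (2 * s) / (1 - r * Real.cos (2 * s)))))
      (1 / (1 + (t * Real.sin s) ^ 2)) s := by
    intro s
    have h2 : HasDerivAt (fun s : ℝ => 2 * s) (2 * 1) s := (hasDerivAt_id s).const_mul 2
    have h3 := ((h2.sin.const_mul r).div ((h2.cos.const_mul r).const_sub 1) (hd s).ne').arctan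
    refine (((hasDerivAt_id s).add h3).const_mul (1 / μ)).congr_deriv ?_
    have hs := Real.sin_sq_add_cos_sq (2 * s)
    have hds := hd s
    have hc : Real.cos (2 * s) = 1 - 2 * Real.sin s ^ 2 := by
      rw [Real.cos_two_mul]; linarith [Real.sin_sq_add_cos_sq s]
    have hden : 0 < (1 - r * Real.cos (2 * s)) ^ 2 + (r * Real.sin (2 * s)) ^ 2 := by positivity
    have e1 : (1 - r * Real.cos (2 * s)) ^ 2 + (r * Real.sin (2 * s)) ^ 2 =
        (1 - r) ^ 2 + 4 * r * Real.sin s ^ 2 := by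
      linear_combination r ^ 2 * hs - 2 * r * hc
    have e2 : (1 - r) ^ 2 + 4 * r * Real.sin s ^ 2 =
        4 * (1 + (t * Real.sin s) ^ 2) / (μ + 1) ^ 2 := by
      rw [hr]; field_simp; linear_combination (4 * Real.sin s ^ 2) * hμ2
    simp only [one_div, id_eq, Pi.div_apply]
    field_simp
    have e4 : μ * (4 * (1 + (t * Real.sin s) ^ 2) / (μ + 1) ^ 2) =
        (1 - r ^ 2) * (1 + (t * Real.sin s) ^ 2) := by
      rw [hr]; field_simp; ring
    linear_combination -μ * e1 - μ * e2 - e4 - r ^ 2 * (1 + (t * Real.sin s) ^ 2) * hs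
  have hc : Continuous fun s => 1 / (1 + (t * Real.sin s) ^ 2) :=
    continuous_const.div (by fun_prop) fun s => by positivity
  rw [mean, intervalIntegral.integral_eq_sub_of_hasDerivAt (fun s _ => key s)
    (hc.intervalIntegrable _ _), smul_eq_mul]
  have h4 : Real.sin (2 * (2 * π)) = 0 := by
    rw [show 2 * (2 * π) = (4 : ℕ) * π by push_cast; ring, Real.sin_nat_mul_pi]
  simp only [h4, mul_zero, Real.sin_zero, zero_div, Real.arctan_zero, add_zero]
  field_simp
  ring

end Vale.Agent.P205.Wave
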