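import Vale.Agent.P205.Wave.CostInt

/-!
Sizes `A ^ d * M ^ m`: the amplitude to a power times the magnitude to a power, each derivative
costing `B ≤ M`.
-/

noncomputable section

open Set Finset
open scoped ContDiff

namespace Vale.Agent.P205.Wave

variable {ι X : Type} [NormedAddCommGroup X] [NormedSpace ℝ X]
variable {F G : Type} [NormedAddCommGroup F] [NormedSpace ℝ F] [NormedAddCommGroup G]
  [NormedSpace ℝ G]

namespace Cost

variable {σ : Scale ι X} {w : ι → X → ℝ}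

theorem neg {f : ι → X → F} (hf : Cost σ w f) : Cost σ w fun t x => -f t x :=
  hf.clm (-ContinuousLinearMap.id ℝ F)

theorem sub {f g : ι → X → F} (hf : Cost σ w f) (hg : Cost σ w g) :
    Cost σ w fun t x => f t x - g t x := by
  simpa only [sub_eq_add_neg] using hf.add hg.neg

theorem zero (hw : ∀ t, ∀ x ∈ σ.S t, 0 ≤ w t x) : Cost σ w fun _ _ => (0 : F) := by
  refine ⟨fun _ => contDiffOn_const, hw, fun i => ⟨0, le_rfl, fun t x _ => ?_⟩⟩
  rw [iteratedFDeriv_fun_zero]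
  simp

theorem sum {κ : Type} (s : Finset κ) {f : κ → ι → X → F} (hw : ∀ t, ∀ x ∈ σ.S t, 0 ≤ w t x)
    (hf : ∀ k ∈ s, Cost σ w (f k)) : Cost σ w fun t x => ∑ k ∈ s, f k t x := by
  classical
  induction s using Finset.induction_on with
  | empty => simpa using Cost.zero hw
  | insert a s ha ih =>
    simpa only [Finset.sum_insert ha] using
      (hf a (mem_insert_self a s)).add (ih fun k hk => hf k (mem_insert_of_mem hk))

/-- One derivative in a direction of length at most `L` costs `B * L`. -/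
theorem deriv_var {f : ι → X → F} (hf : Cost σ w f) (a : ι → X) {L : ι → ℝ}
    (ha : ∀ t, ‖a t‖ ≤ L t) :
    Cost σ (fun t x => w t x * (σ.B t * L t)) fun t => D (a t) (f t) := by
  refine ⟨fun t => contDiffOn_D (σ.isOpen t) (hf.smooth t) (a t), fun t x hx =>
    mul_nonneg (hf.nonneg t x hx) (mul_nonneg (zero_le_one.trans (σ.one_le t))
      ((norm_nonneg _).trans (ha t))), fun i => ?_⟩
  obtain ⟨C, hC0, hC⟩ := hf.bound (i + 1)
  refine ⟨C, hC0, fun t x hx => ?_⟩
  have hd : ContDiffAt ℝ i (fderiv ℝ (f t)) x :=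
    (hf.contDiffAt hx (i + 1)).fderiv_right (by norm_cast)
  have h := (ContinuousLinearMap.apply ℝ F (a t)).norm_iteratedFDeriv_comp_left hd le_rfl
  refine h.trans ?_
  rw [norm_iteratedFDeriv_fderiv]
  refine (mul_le_mul ((?_ : ‖ContinuousLinearMap.apply ℝ F (a t)‖ ≤ ‖a t‖).trans (ha t))
    (hC t x hx) (norm_nonneg _) ((norm_nonneg _).trans (ha t))).trans
      (le_of_eq (by rw [pow_succ]; ring))
  exact ContinuousLinearMap.opNorm_le_bound _ (norm_nonneg _) fun L => by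
    rw [ContinuousLinearMap.apply_apply, mul_comm]; exact L.le_opNorm (a t)

/-- A positive family with relative cost has inverses and roots of relative cost. -/
theorem rel_inv {f : ι → X → ℝ} (hf : Cost σ f f) (hpos : ∀ t, ∀ x ∈ σ.S t, 0 < f t x) :
    Cost σ (fun t x => (f t x)⁻¹) fun t x => (f t x)⁻¹ :=
  hf.inv one_pos hpos fun _ _ _ => (one_mul _).le

theorem rel_sqrt {f : ι → X → ℝ} (hf : Cost σ f f) (hpos : ∀ t, ∀ x ∈ σ.S t, 0 < f t x) :
    Cost σ (fun t x => Real.sqrt (f t x)) fun t x => Real.sqrt (f t x) :=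
  hf.sqrt one_pos hpos fun _ _ _ => (one_mul _).le

theorem smul {w' : ι → X → ℝ} {f : ι → X → ℝ} {g : ι → X → F} (hf : Cost σ w f)
    (hg : Cost σ w' g) : Cost σ (fun t x => w t x * w' t x) fun t x => f t x • g t x :=
  hf.bilin hg (ContinuousLinearMap.lsmul ℝ ℝ)

theorem mul {w' : ι → X → ℝ} {f g : ι → X → ℝ} (hf : Cost σ w f) (hg : Cost σ w' g) :
    Cost σ (fun t x => w t x * w' t x) fun t x => f t x * g t x :=
  hf.bilin hg (ContinuousLinearMap.mul ℝ ℝ)

theorem proj {n : ℕ} {f : ι → X → Fin n → ℝ} (hf : Cost σ w f) (i : Fin n) :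
    Cost σ w fun t x => f t x i :=
  hf.clm (ContinuousLinearMap.proj (R := ℝ) (φ := fun _ : Fin n => ℝ) i)

theorem pi {n : ℕ} {f : ι → X → Fin n → ℝ} (hw : ∀ t, ∀ x ∈ σ.S t, 0 ≤ w t x)
    (hf : ∀ i, Cost σ w fun t x => f t x i) : Cost σ w f := by
  refine (Cost.sum Finset.univ hw (f := fun i t x => f t x i • (Pi.single i 1 : Fin n → ℝ))
    fun i _ => ?_).congr fun t x _ => ?_
  · simpa using (hf i).smul (Cost.const (Pi.single i (1 : ℝ) : Fin n → ℝ))
  · funext j
    simp [Finset.sum_apply, Pi.single_apply]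

theorem ip {w' : ι → X → ℝ} {f g : ι → X → V4} (hf : Cost σ w f) (hg : Cost σ w' g) :
    Cost σ (fun t x => w t x * w' t x) fun t x => Wave.ip (f t x) (g t x) :=
  Cost.sum Finset.univ (fun t x hx => mul_nonneg (hf.nonneg t x hx) (hg.nonneg t x hx))
    (f := fun i t x => f t x i * g t x i) fun i _ => (hf.proj i).mul (hg.proj i)

/-- The sine of the fast variable costs nothing. -/
theorem sin {ι Y : Type} [NormedAddCommGroup Y] [NormedSpace ℝ Y] {σ : Scale ι Y}
    (L : Y →L[ℝ] ℝ) (hL : ‖L‖ ≤ 1) : Cost σ (fun _ _ => 1) fun _ y => Real.sin (L y) := by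
  refine ⟨fun _ => (Real.contDiff_sin.comp L.contDiff).contDiffOn, fun _ _ _ => zero_le_one,
    fun i => ⟨1, zero_le_one, fun t x _ => ?_⟩⟩
  rw [show (fun y => Real.sin (L y)) = Real.sin ∘ L from rfl,
    L.iteratedFDeriv_comp_right (Real.contDiff_sin (n := i)) x le_rfl]
  refine (ContinuousMultilinearMap.norm_compContinuousLinearMap_le _ _).trans ?_
  rw [norm_iteratedFDeriv_eq_norm_iteratedDeriv, one_mul, one_mul]
  refine le_trans ?_ (one_le_pow₀ (σ.one_le t))
  exact mul_le_one₀ (Real.abs_iteratedDeriv_sin_le_one i _)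
    (Finset.prod_nonneg fun _ _ => norm_nonneg _)
    (Finset.prod_le_one (fun _ _ => norm_nonneg _) fun _ _ => hL)

/-- A bound on values by the cost. -/
theorem abs_le {f : ι → X → ℝ} (hf : Cost σ w f) :
    ∃ C, 0 ≤ C ∧ ∀ t, ∀ x ∈ σ.S t, |f t x| ≤ C * w t x := by
  obtain ⟨C, hC0, hC⟩ := hf.bound 0
  refine ⟨C, hC0, fun t x hx => ?_⟩
  have := hC t x hx
  simpa [norm_iteratedFDeriv_zero] using this

end Cost

/-- Charts with a magnitude `M ≥ B` and an amplitude `0 ≤ A ≤ 1`. -/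
structure Mag (ι X : Type) [TopologicalSpace X] extends Scale ι X where
  /-- The magnitude. -/
  M : ι → ℝ
  /-- The amplitude. -/
  A : ι → X → ℝ
  le_M : ∀ t, B t ≤ M t
  A_nonneg : ∀ t, ∀ x ∈ S t, 0 ≤ A t x
  A_le : ∀ t, ∀ x ∈ S t, A t x ≤ 1

/-- The charts with the fast variable added. -/
def Mag.fast (μ : Mag ι X) : Mag ι (X × ℝ) where
  toScale := μ.toScale.fast
  M := μ.M
  A t p := μ.A t p.1
  le_M := μ.le_M
  A_nonneg t p hp := μ.A_nonneg t p.1 hp.1
  A_le t p hp := μ.A_le t p.1 hp.1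

/-- Size at most a constant times `A ^ d * M ^ m`. -/
def Sz (μ : Mag ι X) (d m : ℕ) (f : ι → X → F) : Prop :=
  Cost μ.toScale (fun t x => μ.A t x ^ d * μ.M t ^ m) f

variable {μ : Mag ι X} {d d' m m' : ℕ}

theorem Mag.one_le_M (μ : Mag ι X) (t : ι) : 1 ≤ μ.M t := (μ.one_le t).trans (μ.le_M t)

theorem Mag.weight_nonneg (μ : Mag ι X) (d m : ℕ) :
    ∀ t, ∀ x ∈ μ.S t, 0 ≤ μ.A t x ^ d * μ.M t ^ m := fun t x hx =>
  mul_nonneg (pow_nonneg (μ.A_nonneg t x hx) d) (pow_nonneg (zero_le_one.trans (μ.one_le_M t)) m)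

theorem Cost.sz {w : ι → X → ℝ} {f : ι → X → F} (hf : Cost μ.toScale w f) {c : ℝ} (hc : 0 ≤ c)
    (h : ∀ t, ∀ x ∈ μ.S t, w t x ≤ c * (μ.A t x ^ d * μ.M t ^ m)) : Sz μ d m f :=
  hf.mono hc (μ.weight_nonneg d m) h

namespace Sz

variable {f g : ι → X → F}

theorem le (hf : Sz μ d m f) (hd : d' ≤ d) (hm : m ≤ m') : Sz μ d' m' f :=
  Cost.sz hf zero_le_one fun t x hx => by
    rw [one_mul]
    exact mul_le_mul (pow_le_pow_of_le_one (μ.A_nonneg t x hx) (μ.A_le t x hx) hd)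
      (pow_le_pow_right₀ (μ.one_le_M t) hm) (pow_nonneg (zero_le_one.trans (μ.one_le_M t)) m)
      (pow_nonneg (μ.A_nonneg t x hx) _)

theorem congr (hf : Sz μ d m f) (h : ∀ t, ∀ x ∈ μ.S t, g t x = f t x) : Sz μ d m g :=
  Cost.congr hf h

theorem const (c : F) : Sz μ 0 0 fun _ _ => c :=
  (Cost.const c).sz zero_le_one fun _ _ _ => by simp

theorem zero : Sz μ d m fun _ _ => (0 : F) := Cost.zero (μ.weight_nonneg d m)

theorem add (hf : Sz μ d m f) (hg : Sz μ d m g) : Sz μ d m fun t x => f t x + g t x :=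
  Cost.add hf hg

theorem sub (hf : Sz μ d m f) (hg : Sz μ d m g) : Sz μ d m fun t x => f t x - g t x :=
  Cost.sub hf hg

theorem neg (hf : Sz μ d m f) : Sz μ d m fun t x => -f t x := Cost.neg hf

theorem sum {κ : Type} (s : Finset κ) {f : κ → ι → X → F} (hf : ∀ k ∈ s, Sz μ d m (f k)) :
    Sz μ d m fun t x => ∑ k ∈ s, f k t x :=
  Cost.sum s (μ.weight_nonneg d m) hf

theorem smul {a : ι → X → ℝ} (ha : Sz μ d m a) (hg : Sz μ d' m' g) :
    Sz μ (d + d') (m + m') fun t x => a t x • g t x :=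
  Cost.sz (Cost.smul ha hg) zero_le_one fun t x _ => le_of_eq (by ring)

theorem mul {a b : ι → X → ℝ} (ha : Sz μ d m a) (hb : Sz μ d' m' b) :
    Sz μ (d + d') (m + m') fun t x => a t x * b t x :=
  Cost.sz (Cost.mul ha hb) zero_le_one fun t x _ => le_of_eq (by ring)

theorem ip {a b : ι → X → V4} (ha : Sz μ d m a) (hb : Sz μ d' m' b) :
    Sz μ (d + d') (m + m') fun t x => Wave.ip (a t x) (b t x) :=
  Cost.sz (Cost.ip ha hb) zero_le_one fun t x _ => le_of_eq (by ring)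

theorem proj {n : ℕ} {a : ι → X → Fin n → ℝ} (ha : Sz μ d m a) (i : Fin n) :
    Sz μ d m fun t x => a t x i :=
  Cost.proj ha i

theorem pi {n : ℕ} {a : ι → X → Fin n → ℝ} (ha : ∀ i, Sz μ d m fun t x => a t x i) :
    Sz μ d m a :=
  Cost.pi (μ.weight_nonneg d m) ha

theorem deriv (hf : Sz μ d m f) (a : ι → X) (ha : ∀ t, ‖a t‖ ≤ μ.M t) :
    Sz μ d (m + 2) fun t => D (a t) (f t) :=
  Cost.sz (Cost.deriv_var hf a ha) zero_le_one fun t x hx => by
    rw [one_mul, pow_add, ← mul_assoc (μ.A t x ^ d), sq]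
    exact mul_le_mul_of_nonneg_left (mul_le_mul_of_nonneg_right (μ.le_M t)
      (zero_le_one.trans (μ.one_le_M t))) (μ.weight_nonneg d m t x hx)

variable [FiniteDimensional ℝ X]

theorem fast (hf : Sz μ d m f) : Sz μ.fast d m fun t p => f t p.1 := Cost.fast hf

variable [CompleteSpace F] {h : ι → X → ℝ → F}

omit [CompleteSpace F] in
/-- A slow derivative of a family in the fast space. -/
theorem de (hh : Sz μ.fast d m fun t p => h t p.1 p.2) (a : ι → X) (ha : ∀ t, ‖a t‖ ≤ μ.M t) :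
    Sz μ.fast d (m + 2) fun t p => D (a t) (fun y => h t y p.2) p.1 := by
  refine (Sz.deriv hh (fun t => (a t, 0)) fun t => by
    have h1 := ha t; simpa [Prod.norm_def, Mag.fast] using h1).congr fun t p hp => ?_
  have hd : HasFDerivAt (fun q : X × ℝ => h t q.1 q.2) _ (p.1, p.2) :=
    (((hh.smooth t).differentiableOn (by simp)).differentiableAt
      ((μ.fast.isOpen t).mem_nhds hp)).hasFDerivAt
  have h2 : HasFDerivAt (fun y => h t y p.2) _ p.1 :=
    hd.comp (f := fun y => (y, p.2)) p.1 (hasFDerivAt_prodMk_left p.1 p.2)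
  simp only [D]
  rw [h2.fderiv]
  rfl

omit [FiniteDimensional ℝ X] [CompleteSpace F] in
/-- The fast derivative. -/
theorem ds (hh : Sz μ.fast d m fun t p => h t p.1 p.2) :
    Sz μ.fast d (m + 2) fun t p => _root_.deriv (h t p.1) p.2 := by
  refine (Sz.deriv hh (fun _ => (0, 1)) fun t => by
    simpa [Prod.norm_def, Mag.fast] using μ.one_le_M t).congr fun t p hp => ?_
  have hd : HasFDerivAt (fun q : X × ℝ => h t q.1 q.2) _ (p.1, p.2) :=
    (((hh.smooth t).differentiableOn (by simp)).differentiableAt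
      ((μ.fast.isOpen t).mem_nhds hp)).hasFDerivAt
  have h2 : HasDerivAt (h t p.1) _ p.2 :=
    hd.comp_hasDerivAt (f := fun u : ℝ => (p.1, u)) p.2
      ((hasDerivAt_const p.2 p.1).prodMk (hasDerivAt_id p.2))
  exact h2.deriv

theorem mean (hh : Sz μ.fast d m fun t p => h t p.1 p.2) :
    Sz μ d m fun t x => Wave.mean (h t x) :=
  Cost.mean (w := fun t x => μ.A t x ^ d * μ.M t ^ m) hh

theorem prim (hh : Sz μ.fast d m fun t p => h t p.1 p.2)
    (hp : ∀ t, ∀ x ∈ μ.S t, Function.Periodic (h t x) (2 * Real.pi))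
    (h0 : ∀ t, ∀ x ∈ μ.S t, Wave.mean (h t x) = 0) :
    Sz μ.fast d m fun t p => Wave.prim (h t p.1) p.2 :=
  Cost.prim (w := fun t x => μ.A t x ^ d * μ.M t ^ m) hh hp h0

end Sz

end Vale.Agent.P205.Wave
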